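import Vale.Agent.P355.H693W.Fin8

/-! Codes whose flows at the gauge vector are one `+1` and one `-1`: their average over the gauge
vector is a multiple of the average of the contracted code. -/

namespace Vale.Agent.P355.H129X

open Finset Matrix Vale.Agent.P355 Vale.Agent.P355.H129
open Vale.Agent.P355.H138 (s6 pw6 mrg)
open Vale.Agent.P355.H693 (VR nn nV cdV smV okW2 avF w2c xF xe xm)

set_option linter.unusedSectionVars false
set_option linter.unusedSimpArgs false

theorem prod_zpow_sumL {ι : Type} (s : Finset ι) {u : ℂ} (hu : u ≠ 0) (f : ι → ℤ) :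
    ∏ i ∈ s, u ^ f i = u ^ ∑ i ∈ s, f i := by
  classical
  induction s using Finset.induction_on with
  | empty => simp
  | insert a s ha ih => rw [Finset.prod_insert ha, Finset.sum_insert ha, ih, zpow_add₀ hu]

/-- a family of frames indexed by the gauge vectors of one basis. -/
structure Fam (y : Fin 6 → Fin 7 → Fin 7 → ℂ) (g r s : Fin 6 → Fin 6 → ℂ) : Prop where
  hy : ∀ b a c : Fin 6, y b a.castSucc c.castSucc = g a c * s b c * r b a
  hg : ∀ a c, g a c ≠ 0
  hr : ∀ b a, r b a ≠ 0
  hs : ∀ b c, s b c ≠ 0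
  rr : ∀ a a', ∑ b, r b a * (r b a')⁻¹ = if a = a' then 6 else 0
  ss : ∀ c c', ∑ b, s b c * (s b c')⁻¹ = if c = c' then 6 else 0
  rs : ∀ a c, ∑ b, s b c * r b a = s6 * (g a c)⁻¹
  rs' : ∀ a c, ∑ b, (s b c)⁻¹ * (r b a)⁻¹ = s6 * g a c

theorem Fam.tr {y : Fin 6 → Fin 7 → Fin 7 → ℂ} {g r s : Fin 6 → Fin 6 → ℂ} (h : Fam y g r s) :
    Fam (fun b u v => y b v u) (fun c a => g a c) s r where
  hy b a c := by show y b c.castSucc a.castSucc = _; rw [h.hy]; ring
  hg a c := h.hg c a
  hr := h.hs
  hs := h.hr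
  rr := h.ss
  ss := h.rr
  rs a c := by rw [← h.rs c a]; exact Finset.sum_congr rfl fun b _ => mul_comm _ _
  rs' a c := by rw [← h.rs' c a]; exact Finset.sum_congr rfl fun b _ => mul_comm _ _

section
variable {P Q : Type} [Fintype P] [Fintype Q] [DecidableEq P] [DecidableEq Q]
variable {y : Fin 6 → Fin 7 → Fin 7 → ℂ} {g r s : Fin 6 → Fin 6 → ℂ}

/-- the part without the gauge vector. -/
noncomputable def G0 (g : Fin 6 → Fin 6 → ℂ) (n : Option P → Option Q → ℤ)
    (φ : P → Fin 6) (ψ : Q → Fin 6) : ℂ := ∏ p, ∏ q, g (φ p) (ψ q) ^ n (some p) (some q)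

theorem Fam.mon (h : Fam y g r s) {n : Option P → Option Q → ℤ} (hn1 : ∀ q, n none q = 0)
    (hn2 : ∀ p, n p none = 0) (b : Fin 6) (φ : P → Fin 6) (ψ : Q → Fin 6) :
    H138.mon (y b) n φ ψ = G0 g n φ ψ
      * (∏ q, s b (ψ q) ^ ∑ p, n (some p) (some q))
      * (∏ p, r b (φ p) ^ ∑ q, n (some p) (some q)) := by
  have L : H138.mon (y b) n φ ψ
      = ∏ p, ∏ q, y b (φ p).castSucc (ψ q).castSucc ^ n (some p) (some q) := by
    unfold H138.mon
    rw [Fintype.prod_option]
    have e1 : ∏ q : Option Q, y b (H138.ex φ none) (H138.ex ψ q) ^ n none q = 1 :=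
      Finset.prod_eq_one fun q _ => by rw [hn1, zpow_zero]
    rw [e1, one_mul]
    refine Finset.prod_congr rfl fun p _ => ?_
    rw [Fintype.prod_option, hn2, zpow_zero, one_mul]
    rfl
  rw [L]
  unfold G0
  simp only [h.hy, mul_zpow, Finset.prod_mul_distrib]
  have c1 : ∏ p, ∏ q, s b (ψ q) ^ n (some p) (some q)
      = ∏ q, s b (ψ q) ^ (∑ p, n (some p) (some q)) := by
    rw [Finset.prod_comm]
    exact Finset.prod_congr rfl fun q _ => prod_zpow_sumL _ (h.hs _ _) _
  have c2 : ∏ p, ∏ q, r b (φ p) ^ n (some p) (some q)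
      = ∏ p, r b (φ p) ^ (∑ q, n (some p) (some q)) :=
    Finset.prod_congr rfl fun p _ => prod_zpow_sumL _ (h.hr _ _) _
  rw [c1, c2]

/-- a code without flow at the gauge vector. -/
theorem Fam.mon0 (h : Fam y g r s) {n : Option P → Option Q → ℤ} (hn1 : ∀ q, n none q = 0)
    (hn2 : ∀ p, n p none = 0) (hC : ∀ q, ∑ p, n (some p) (some q) = 0)
    (hR : ∀ p, ∑ q, n (some p) (some q) = 0) (b : Fin 6) (φ : P → Fin 6) (ψ : Q → Fin 6) :
    H138.mon (y b) n φ ψ = G0 g n φ ψ := by
  rw [h.mon hn1 hn2]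
  simp only [hC, hR, zpow_zero, Finset.prod_const_one, mul_one]

theorem Fam.gv0 (h : Fam y g r s) {n : Option P → Option Q → ℤ} (hn1 : ∀ q, n none q = 0)
    (hn2 : ∀ p, n p none = 0) (hC : ∀ q, ∑ p, n (some p) (some q) = 0)
    (hR : ∀ p, ∑ q, n (some p) (some q) = 0) (b : Fin 6) :
    H138.gv (y b) n = (6⁻¹ : ℂ) ^ (Fintype.card P + Fintype.card Q) *
      ∑ φ : P → Fin 6, ∑ ψ : Q → Fin 6, G0 g n φ ψ := by
  unfold H138.gv
  simp only [h.mon0 hn1 hn2 hC hR]

theorem sum_gv (n : Option P → Option Q → ℤ) :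
    ∑ b, H138.gv (y b) n = (6⁻¹ : ℂ) ^ (Fintype.card P + Fintype.card Q) *
      ∑ φ : P → Fin 6, ∑ ψ : Q → Fin 6, ∑ b, H138.mon (y b) n φ ψ := by
  unfold H138.gv
  rw [← Finset.mul_sum]
  congr 1
  rw [Finset.sum_comm]
  refine Finset.sum_congr rfl fun φ _ => ?_
  rw [Finset.sum_comm]

/-! ### Row and column -/

/-- subtract `ε` at one entry. -/
def sub1 (n : Option P → Option Q → ℤ) (p0 : P) (q0 : Q) (ε : ℤ) : Option P → Option Q → ℤ :=
  fun p q => if p = some p0 ∧ q = some q0 then n p q - ε else n p q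

theorem sub1_mark1 {n : Option P → Option Q → ℤ} (hn1 : ∀ q, n none q = 0) (p0 : P) (q0 : Q)
    (ε : ℤ) : ∀ q, sub1 n p0 q0 ε none q = 0 := fun q => by
  unfold sub1; rw [if_neg (by simp)]; exact hn1 q

theorem sub1_mark2 {n : Option P → Option Q → ℤ} (hn2 : ∀ p, n p none = 0) (p0 : P) (q0 : Q)
    (ε : ℤ) : ∀ p, sub1 n p0 q0 ε p none = 0 := fun p => by
  unfold sub1; rw [if_neg (by simp)]; exact hn2 p

theorem sub1_some (n : Option P → Option Q → ℤ) (p0 : P) (q0 : Q) (ε : ℤ) (p : P) (q : Q) :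
    sub1 n p0 q0 ε (some p) (some q)
      = n (some p) (some q) - (if p = p0 then (if q = q0 then ε else 0) else 0) := by
  unfold sub1
  by_cases hp : p = p0
  · by_cases hq : q = q0
    · simp [hp, hq]
    · simp [hp, hq]
  · simp [hp]

theorem sub1_R {n : Option P → Option Q → ℤ} (p0 : P) (q0 : Q) (ε : ℤ)
    (hR : ∀ p, ∑ q, n (some p) (some q) = if p = p0 then ε else 0) :
    ∀ p, ∑ q, sub1 n p0 q0 ε (some p) (some q) = 0 := by
  intro p
  simp only [sub1_some, Finset.sum_sub_distrib, hR]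
  by_cases hp : p = p0 <;> simp [hp]

theorem sub1_C {n : Option P → Option Q → ℤ} (p0 : P) (q0 : Q) (ε : ℤ)
    (hC : ∀ q, ∑ p, n (some p) (some q) = if q = q0 then ε else 0) :
    ∀ q, ∑ p, sub1 n p0 q0 ε (some p) (some q) = 0 := by
  intro q
  simp only [sub1_some, Finset.sum_sub_distrib, hC]
  by_cases hq : q = q0 <;> simp [hq]

theorem G0_sub1 (hg : ∀ a c, g a c ≠ 0) (n : Option P → Option Q → ℤ) (p0 : P) (q0 : Q) (ε : ℤ)
    (φ : P → Fin 6) (ψ : Q → Fin 6) :
    G0 g (sub1 n p0 q0 ε) φ ψ = G0 g n φ ψ * g (φ p0) (ψ q0) ^ (-ε) := by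
  unfold G0
  have e1 : ∀ (p : P) (q : Q), g (φ p) (ψ q) ^ sub1 n p0 q0 ε (some p) (some q)
      = g (φ p) (ψ q) ^ n (some p) (some q)
        * (if p = p0 then (if q = q0 then g (φ p0) (ψ q0) ^ (-ε) else 1) else 1) := by
    intro p q
    rw [sub1_some]
    by_cases hp : p = p0
    · by_cases hq : q = q0
      · subst hp hq
        simp only [if_true]
        rw [sub_eq_add_neg, zpow_add₀ (hg _ _)]
      · simp [hp, hq]
    · simp [hp]
  simp only [e1, Finset.prod_mul_distrib]
  congr 1
  simp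

theorem Fam.gv_C (h : Fam y g r s) {n : Option P → Option Q → ℤ} (hn1 : ∀ q, n none q = 0)
    (hn2 : ∀ p, n p none = 0) (p0 : P) (q0 : Q) {ε : ℤ} (hε : ε = 1 ∨ ε = -1)
    (hR : ∀ p, ∑ q, n (some p) (some q) = if p = p0 then ε else 0)
    (hC : ∀ q, ∑ p, n (some p) (some q) = if q = q0 then ε else 0) (b0 : Fin 6) :
    ∑ b, H138.gv (y b) n = s6 * H138.gv (y b0) (sub1 n p0 q0 ε) := by
  rw [sum_gv, h.gv0 (sub1_mark1 hn1 p0 q0 ε) (sub1_mark2 hn2 p0 q0 ε) (sub1_C p0 q0 ε hC)
    (sub1_R p0 q0 ε hR), mul_left_comm]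
  congr 1
  rw [Finset.mul_sum]
  refine Finset.sum_congr rfl fun φ _ => ?_
  rw [Finset.mul_sum]
  refine Finset.sum_congr rfl fun ψ _ => ?_
  have e1 : ∀ b, H138.mon (y b) n φ ψ = G0 g n φ ψ * (s b (ψ q0) ^ ε * r b (φ p0) ^ ε) := by
    intro b
    rw [h.mon hn1 hn2]
    have a1 : ∏ q, s b (ψ q) ^ (∑ p, n (some p) (some q)) = s b (ψ q0) ^ ε := by
      rw [Finset.prod_eq_single q0 (fun q _ hq => by rw [hC, if_neg hq, zpow_zero])
        (fun hq => absurd (Finset.mem_univ _) hq), hC, if_pos rfl]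
    have a2 : ∏ p, r b (φ p) ^ (∑ q, n (some p) (some q)) = r b (φ p0) ^ ε := by
      rw [Finset.prod_eq_single p0 (fun p _ hp => by rw [hR, if_neg hp, zpow_zero])
        (fun hp => absurd (Finset.mem_univ _) hp), hR, if_pos rfl]
    rw [a1, a2, mul_assoc]
  simp only [e1, ← Finset.mul_sum]
  rw [G0_sub1 h.hg]
  rcases hε with rfl | rfl
  · simp only [zpow_one, _root_.zpow_neg_one]
    rw [h.rs]; ring
  · simp only [neg_neg, zpow_one, _root_.zpow_neg_one]
    rw [h.rs']; ring

theorem re_s6 (z : ℂ) : (s6 * z).re = Real.sqrt 6 * z.re := by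
  unfold H138.s6
  rw [Complex.re_ofReal_mul]

theorem Fam.rv_C (h : Fam y g r s) {n : Option P → Option Q → ℤ} (hn1 : ∀ q, n none q = 0)
    (hn2 : ∀ p, n p none = 0) (p0 : P) (q0 : Q) {ε : ℤ} (hε : ε = 1 ∨ ε = -1)
    (hR : ∀ p, ∑ q, n (some p) (some q) = if p = p0 then ε else 0)
    (hC : ∀ q, ∑ p, n (some p) (some q) = if q = q0 then ε else 0) (par : Bool) (b0 : Fin 6) :
    ∑ b, H138.rv (y b) par n
      = (if par then 6 else 1) * H138.rv (y b0) (!par) (sub1 n p0 q0 ε) := by
  have h1 := congrArg Complex.re (h.gv_C hn1 hn2 p0 q0 hε hR hC b0)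
  have h2 := congrArg Complex.re (h.tr.gv_C hn1 hn2 p0 q0 hε hR hC b0)
  rw [re_s6, Complex.re_sum] at h1 h2
  unfold H138.rv
  rw [← Finset.mul_sum, ← Finset.sum_div, Finset.sum_add_distrib, h1, h2]
  have h6 : Real.sqrt 6 * Real.sqrt 6 = 6 := Real.mul_self_sqrt (by norm_num)
  cases par with
  | true =>
    simp only [H138.pw6, H138.r6, if_true, Bool.not_true, Bool.false_eq_true, if_false]
    linear_combination (((H138.gv (y b0) (sub1 n p0 q0 ε)).re
      + (H138.gv (fun u v => y b0 v u) (sub1 n p0 q0 ε)).re) / 2) * h6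
  | false =>
    simp only [H138.pw6, H138.r6, if_true, Bool.not_false, Bool.false_eq_true, if_false]
    ring

/-! ### Two rows -/

theorem prod_mrgG {F : P → ℂ} (hF : ∀ p, F p ≠ 0) (w w' : P → ℤ) (p0 p1 : P) (h01 : p0 ≠ p1)
    (hf : F p0 = F p1) (h1 : w' p1 = 0) (h0 : w' p0 = w p0 + w p1)
    (hp : ∀ p, p ≠ p0 → p ≠ p1 → w' p = w p) :
    ∏ p, F p ^ w p = ∏ p, F p ^ w' p := by
  have hm0 : p0 ∈ (Finset.univ : Finset P) := Finset.mem_univ _
  have hm1 : p1 ∈ (Finset.univ : Finset P).erase p0 := by simp [Ne.symm h01]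
  rw [← Finset.mul_prod_erase _ _ hm0, ← Finset.mul_prod_erase _ _ hm1,
    ← Finset.mul_prod_erase _ (fun p => F p ^ w' p) hm0,
    ← Finset.mul_prod_erase _ (fun p => F p ^ w' p) hm1, ← mul_assoc, ← mul_assoc]
  congr 1
  · simp only [h0, h1, hf, zpow_zero, mul_one, zpow_add₀ (hF _)]
  · refine Finset.prod_congr rfl fun p hp' => ?_
    have e1 := Finset.mem_erase.1 hp'
    have e2 := Finset.mem_erase.1 e1.2
    rw [hp p e2.1 e1.1]

theorem mrg_mark1 {n : Option P → Option Q → ℤ} (hn1 : ∀ q, n none q = 0) (p0 p1 : P) :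
    ∀ q, mrg n p0 p1 none q = 0 := fun q => by
  unfold H138.mrg; rw [if_neg (by simp), if_neg (by simp)]; exact hn1 q

theorem mrg_mark2 {n : Option P → Option Q → ℤ} (hn2 : ∀ p, n p none = 0) (p0 p1 : P) :
    ∀ p, mrg n p0 p1 p none = 0 := fun p => by
  unfold H138.mrg
  split_ifs
  · rfl
  · rw [hn2, hn2, add_zero]
  · exact hn2 p

theorem mrg_1 (n : Option P → Option Q → ℤ) (p0 p1 : P) (q : Option Q) :
    mrg n p0 p1 (some p1) q = 0 := by unfold H138.mrg; rw [if_pos rfl]

theorem mrg_0 (n : Option P → Option Q → ℤ) {p0 p1 : P} (h01 : p0 ≠ p1) (q : Option Q) :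
    mrg n p0 p1 (some p0) q = n (some p0) q + n (some p1) q := by
  unfold H138.mrg; rw [if_neg (by simpa using h01), if_pos rfl]

theorem mrg_2 (n : Option P → Option Q → ℤ) {p0 p1 p : P} (h0 : p ≠ p0) (h1 : p ≠ p1)
    (q : Option Q) : mrg n p0 p1 (some p) q = n (some p) q := by
  unfold H138.mrg; rw [if_neg (by simpa using h1), if_neg (by simpa using h0)]

theorem Fam.gv_A (h : Fam y g r s) {n : Option P → Option Q → ℤ} (hn1 : ∀ q, n none q = 0)
    (hn2 : ∀ p, n p none = 0) (p0 p1 : P) (h01 : p0 ≠ p1)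
    (hR : ∀ p, ∑ q, n (some p) (some q) = if p = p0 then 1 else if p = p1 then -1 else 0)
    (hC : ∀ q, ∑ p, n (some p) (some q) = 0) (b0 : Fin 6) :
    ∑ b, H138.gv (y b) n = H138.gv (y b0) (mrg n p0 p1) := by
  have hR' : ∀ p, ∑ q, mrg n p0 p1 (some p) (some q) = 0 := by
    intro p
    by_cases e1 : p = p1
    · subst e1
      exact Finset.sum_eq_zero fun q _ => mrg_1 n p0 p (some q)
    · by_cases e0 : p = p0
      · subst e0
        simp only [mrg_0 n h01, Finset.sum_add_distrib, hR, if_true]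
        rw [if_neg (Ne.symm h01)]
        norm_num
      · simp only [mrg_2 n e0 e1, hR, if_neg e0, if_neg e1]
  have hC' : ∀ q, ∑ p, mrg n p0 p1 (some p) (some q) = 0 := by
    intro q
    have hm0 : p0 ∈ (Finset.univ : Finset P) := Finset.mem_univ _
    have hm1 : p1 ∈ (Finset.univ : Finset P).erase p0 := by simp [Ne.symm h01]
    have h3 := hC q
    rw [← Finset.add_sum_erase _ _ hm0, ← Finset.add_sum_erase _ _ hm1] at h3 ⊢
    rw [mrg_0 n h01, mrg_1]
    have h4 : ∑ p ∈ ((Finset.univ : Finset P).erase p0).erase p1, mrg n p0 p1 (some p) (some q)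
        = ∑ p ∈ ((Finset.univ : Finset P).erase p0).erase p1, n (some p) (some q) := by
      refine Finset.sum_congr rfl fun p hp' => ?_
      have e1 := Finset.mem_erase.1 hp'
      have e2 := Finset.mem_erase.1 e1.2
      exact mrg_2 n e2.1 e1.1 _
    rw [h4]
    linarith
  rw [sum_gv, h.gv0 (mrg_mark1 hn1 p0 p1) (mrg_mark2 hn2 p0 p1) hC' hR']
  congr 1
  have e1 : ∀ φ ψ b, H138.mon (y b) n φ ψ = G0 g n φ ψ * (r b (φ p0) * (r b (φ p1))⁻¹) := by
    intro φ ψ b
    rw [h.mon hn1 hn2]
    have a1 : ∏ q, s b (ψ q) ^ (∑ p, n (some p) (some q)) = 1 :=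
      Finset.prod_eq_one fun q _ => by rw [hC, zpow_zero]
    have a2 : ∏ p, r b (φ p) ^ (∑ q, n (some p) (some q)) = r b (φ p0) * (r b (φ p1))⁻¹ := by
      have hm0 : p0 ∈ (Finset.univ : Finset P) := Finset.mem_univ _
      have hm1 : p1 ∈ (Finset.univ : Finset P).erase p0 := by simp [Ne.symm h01]
      rw [← Finset.mul_prod_erase _ _ hm0, ← Finset.mul_prod_erase _ _ hm1, hR, hR, if_pos rfl,
        if_neg (Ne.symm h01), if_pos rfl, zpow_one, _root_.zpow_neg_one,
        Finset.prod_eq_one (s := ((Finset.univ : Finset P).erase p0).erase p1), mul_one]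
      intro p hp'
      have e1 := Finset.mem_erase.1 hp'
      have e2 := Finset.mem_erase.1 e1.2
      rw [hR, if_neg e2.1, if_neg e1.1, zpow_zero]
    rw [a1, a2, mul_one]
  have e2 : ∀ φ : P → Fin 6, ∑ ψ : Q → Fin 6, ∑ b, H138.mon (y b) n φ ψ
      = 6 * (if φ p0 = φ p1 then ∑ ψ : Q → Fin 6, G0 g (mrg n p0 p1) φ ψ else 0) := by
    intro φ
    simp only [e1, ← Finset.mul_sum, h.rr]
    by_cases hφ : φ p0 = φ p1
    · simp only [if_pos hφ]
      rw [Finset.mul_sum]
      refine Finset.sum_congr rfl fun ψ _ => ?_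
      rw [mul_comm]
      congr 1
      unfold G0
      rw [Finset.prod_comm, Finset.prod_comm (f := fun p q =>
        g (φ p) (ψ q) ^ mrg n p0 p1 (some p) (some q))]
      refine Finset.prod_congr rfl fun q _ => ?_
      exact prod_mrgG (fun p => h.hg _ _) _ _ p0 p1 h01 (by rw [hφ]) (mrg_1 n p0 p1 _)
        (mrg_0 n h01 _) (fun p e0 e1 => mrg_2 n e0 e1 _)
    · simp only [if_neg hφ, mul_zero, Finset.sum_const_zero]
  simp only [e2]
  rw [← Finset.mul_sum, H138.sum_ite_eq_avg _ p0 p1 h01]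
  · ring
  · intro φ b
    refine Finset.sum_congr rfl fun ψ _ => ?_
    unfold G0
    refine Finset.prod_congr rfl fun p _ => Finset.prod_congr rfl fun q _ => ?_
    by_cases e : p = p1
    · subst e
      rw [mrg_1, zpow_zero, zpow_zero]
    · rw [Function.update_of_ne e]

theorem Fam.rv_A (h : Fam y g r s) {n : Option P → Option Q → ℤ} (hn1 : ∀ q, n none q = 0)
    (hn2 : ∀ p, n p none = 0) (p0 p1 : P) (h01 : p0 ≠ p1)
    (hR : ∀ p, ∑ q, n (some p) (some q) = if p = p0 then 1 else if p = p1 then -1 else 0)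
    (hC : ∀ q, ∑ p, n (some p) (some q) = 0) (par : Bool) (b0 : Fin 6) :
    ∑ b, H138.rv (y b) par n = H138.rv (y b0) par (mrg n p0 p1) := by
  have h1 := congrArg Complex.re (h.gv_A hn1 hn2 p0 p1 h01 hR hC b0)
  have h2 := congrArg Complex.re (h.tr.gv_A hn1 hn2 p0 p1 h01 hR hC b0)
  rw [Complex.re_sum] at h1 h2
  unfold H138.rv
  rw [← Finset.mul_sum, ← Finset.sum_div, Finset.sum_add_distrib, h1, h2]

/-- two columns. -/
theorem Fam.rv_B (h : Fam y g r s) {n : Option P → Option Q → ℤ} (hn1 : ∀ q, n none q = 0)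
    (hn2 : ∀ p, n p none = 0) (q0 q1 : Q) (h01 : q0 ≠ q1)
    (hC : ∀ q, ∑ p, n (some p) (some q) = if q = q0 then 1 else if q = q1 then -1 else 0)
    (hR : ∀ p, ∑ q, n (some p) (some q) = 0) (par : Bool) (b0 : Fin 6) :
    ∑ b, H138.rv (y b) par n
      = H138.rv (y b0) par (fun p q => mrg (fun q p => n p q) q0 q1 q p) := by
  have h1 := h.rv_A (n := fun q p => n p q) hn2 hn1 q0 q1 h01 hC hR par b0
  have h2 : ∀ b, H138.rv (y b) par (fun q p => n p q) = H138.rv (y b) par n := fun b =>
    H138.rv_swap par n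
  simp only [h2] at h1
  rw [h1]
  exact (H138.rv_swap (x := y b0) par (mrg (fun q p => n p q) q0 q1)).symm

end

/-! ### Records -/

/-- a pair of codes: multiplier, parity, sizes, exponents (row major, index `0` = mark), codes;
kind `0`: rows `i`, `j` are merged; `1`: columns `i`, `j`; `2`, `3`: row `i` and column `j`. -/
structure LR where
  d : ℤ
  par : Bool
  P : ℕ
  Q : ℕ
  l : List ℤ
  code : ℤ
  l' : List ℤ
  code' : ℤ
  ty : ℕ
  i : ℕ
  j : ℕ

/-- the two terms. -/
def LR.terms (r : LR) : List (ℤ × Bool × ℤ) :=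
  if r.ty ≤ 1 then [(6 * r.d, r.par, r.code), (-r.d, r.par, r.code')]
  else if r.par then [(r.d, true, r.code), (-r.d, false, r.code')]
  else [(6 * r.d, false, r.code), (-r.d, true, r.code')]

/-- required row sums. -/
def LR.eR (r : LR) (p : ℕ) : ℤ :=
  if r.ty = 0 then (if p = r.i then 1 else if p = r.j then -1 else 0)
  else if r.ty = 1 then 0
  else if r.ty = 2 then (if p = r.i then 1 else 0) else (if p = r.i then -1 else 0)

/-- required column sums. -/
def LR.eC (r : LR) (q : ℕ) : ℤ :=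
  if r.ty = 0 then 0
  else if r.ty = 1 then (if q = r.i then 1 else if q = r.j then -1 else 0)
  else if r.ty = 2 then (if q = r.j then 1 else 0) else (if q = r.j then -1 else 0)

/-- required exponents of the second code. -/
def LR.eN (r : LR) (p q : ℕ) : ℤ :=
  if r.ty = 0 then (if p = r.j then 0 else if p = r.i then nn r.Q r.l r.i q + nn r.Q r.l r.j q
    else nn r.Q r.l p q)
  else if r.ty = 1 then (if q = r.j then 0 else if q = r.i then nn r.Q r.l p r.i + nn r.Q r.l p r.j
    else nn r.Q r.l p q)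
  else if r.ty = 2 then (if p = r.i ∧ q = r.j then nn r.Q r.l p q - 1 else nn r.Q r.l p q)
  else (if p = r.i ∧ q = r.j then nn r.Q r.l p q - -1 else nn r.Q r.l p q)

/-- the indices are in the range. -/
def LR.eI (r : LR) : Bool :=
  if r.ty = 0 then decide (1 ≤ r.i) && decide (r.i ≤ r.P) && decide (1 ≤ r.j) &&
    decide (r.j ≤ r.P) && !(r.i == r.j)
  else if r.ty = 1 then decide (1 ≤ r.i) && decide (r.i ≤ r.Q) && decide (1 ≤ r.j) &&
    decide (r.j ≤ r.Q) && !(r.i == r.j)
  else decide (1 ≤ r.i) && decide (r.i ≤ r.P) && decide (1 ≤ r.j) && decide (r.j ≤ r.Q)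

/-- **check of a pair.** -/
def LR.ok (K : ℕ) (r : LR) : Bool :=
  decide (r.P ≤ K) && (decide (r.Q ≤ K) && (smV r.P r.Q r.l && (smV r.P r.Q r.l' &&
  ((cdV K r.P r.Q r.l == r.code) && ((cdV K r.P r.Q r.l' == r.code') &&
  (H138.allLe r.P (fun i => nn r.Q r.l i 0 == 0) && (H138.allLe r.Q (fun j => nn r.Q r.l 0 j == 0) &&
  (r.eI &&
  (H138.allLe r.P (fun p => (p == 0) || H138.sumR (r.Q + 1) (fun k => nn r.Q r.l p k) == r.eR p) &&
  (H138.allLe r.Q (fun q => (q == 0) || H138.sumR (r.P + 1) (fun k => nn r.Q r.l k q) == r.eC q) &&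
  H138.allLe r.P fun p => H138.allLe r.Q fun q => nn r.Q r.l' p q == r.eN p q))))))))))

variable {y : Fin 6 → Fin 7 → Fin 7 → ℂ} {g r s : Fin 6 → Fin 6 → ℂ}

/-- **The terms of a pair cancel in the sum over the gauge vectors.** -/
theorem LR.spec (h : Fam y g r s) {K : ℕ} {t : LR} (ht : t.ok K = true) :
    ∑ b, H129.lval K (y b) t.terms = 0 := by
  unfold LR.ok at ht
  simp only [Bool.and_eq_true, decide_eq_true_eq, beq_iff_eq] at ht
  obtain ⟨hP, hQ, hs, hs', hcd, hcd', hm1, hm2, hI, hRR, hCC, hNN⟩ := ht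
  have c1 : ∀ b, H138.cv K (y b) t.par t.code = H138.rv (y b) t.par (nV t.P t.Q t.l) := fun b =>
    (H138.rv_eq_cv (Fin.castLE hP) (Fin.castLE hQ) (Fin.castLE_injective hP)
      (Fin.castLE_injective hQ) _ (H693.smV_spec hs) _ _ (by rw [H693.codeE_V, hcd])).symm
  have c2 : ∀ b par, H138.cv K (y b) par t.code' = H138.rv (y b) par (nV t.P t.Q t.l') :=
    fun b par =>
    (H138.rv_eq_cv (Fin.castLE hP) (Fin.castLE hQ) (Fin.castLE_injective hP)
      (Fin.castLE_injective hQ) _ (H693.smV_spec hs') _ _ (by rw [H693.codeE_V, hcd'])).symm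
  have hn1 : ∀ q, nV t.P t.Q t.l none q = 0 := by
    intro q
    cases q with
    | none =>
      have := H138.allLe_spec' hm2 0 (Nat.zero_le _)
      have h3 : nn t.Q t.l 0 0 = 0 := by simpa using this
      exact h3
    | some j =>
      have := H138.allLe_spec' hm2 ((j : ℕ) + 1) j.2
      have h3 : nn t.Q t.l 0 ((j : ℕ) + 1) = 0 := by simpa using this
      exact h3
  have hn2 : ∀ p, nV t.P t.Q t.l p none = 0 := by
    intro p
    cases p with
    | none => exact hn1 none
    | some i =>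
      have := H138.allLe_spec' hm1 ((i : ℕ) + 1) i.2
      have h3 : nn t.Q t.l ((i : ℕ) + 1) 0 = 0 := by simpa using this
      exact h3
  have hR : ∀ p : Fin t.P, ∑ q : Fin t.Q, nV t.P t.Q t.l (some p) (some q) = t.eR ((p : ℕ) + 1) := by
    intro p
    have h1 := H138.allLe_spec' hRR ((p : ℕ) + 1) p.2
    have h2 : H138.sumR (t.Q + 1) (fun k => nn t.Q t.l ((p : ℕ) + 1) k) = t.eR ((p : ℕ) + 1) := by
      simpa using h1
    rw [← h2, ← H693.sum_idxR (K := t.Q) (fun k => nn t.Q t.l ((p : ℕ) + 1) k),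
      Fintype.sum_option]
    have h3 : nn t.Q t.l ((p : ℕ) + 1) (H138.idx (none : Option (Fin t.Q))) = 0 := hn2 (some p)
    rw [h3, zero_add]
    rfl
  have hC : ∀ q : Fin t.Q, ∑ p : Fin t.P, nV t.P t.Q t.l (some p) (some q) = t.eC ((q : ℕ) + 1) := by
    intro q
    have h1 := H138.allLe_spec' hCC ((q : ℕ) + 1) q.2
    have h2 : H138.sumR (t.P + 1) (fun k => nn t.Q t.l k ((q : ℕ) + 1)) = t.eC ((q : ℕ) + 1) := by
      simpa using h1
    rw [← h2, ← H693.sum_idxR (K := t.P) (fun k => nn t.Q t.l k ((q : ℕ) + 1)),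
      Fintype.sum_option]
    have h3 : nn t.Q t.l (H138.idx (none : Option (Fin t.P))) ((q : ℕ) + 1) = 0 := hn1 (some q)
    rw [h3, zero_add]
    rfl
  have hN : ∀ p q, nV t.P t.Q t.l' p q = t.eN (H138.idx p) (H138.idx q) := by
    intro p q
    have hp : H138.idx p ≤ t.P := by have := H138.idx_lt p; omega
    have hq : H138.idx q ≤ t.Q := by have := H138.idx_lt q; omega
    have := H138.allLe_spec' (H138.allLe_spec' hNN _ hp) _ hq
    have h3 : nn t.Q t.l' (H138.idx p) (H138.idx q) = t.eN (H138.idx p) (H138.idx q) := by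
      simpa using this
    exact h3
  have ix0 : ∀ {k : ℕ}, H138.idx (none : Option (Fin k)) = 0 := rfl
  have ix1 : ∀ {k : ℕ} (p : Fin k), H138.idx (some p) = (p : ℕ) + 1 := fun _ => rfl
  rcases Nat.lt_or_ge t.ty 1 with h0 | h0
  · -- two rows
    have ty : t.ty = 0 := by omega
    unfold LR.eI at hI
    rw [if_pos ty] at hI
    simp only [Bool.and_eq_true, decide_eq_true_eq, Bool.not_eq_true', beq_eq_false_iff_ne] at hI
    obtain ⟨⟨⟨⟨i1, i2⟩, j1⟩, j2⟩, ij⟩ := hI
    let p0 : Fin t.P := ⟨t.i - 1, by omega⟩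
    let p1 : Fin t.P := ⟨t.j - 1, by omega⟩
    have e0 : ∀ p : Fin t.P, ((p : ℕ) + 1 = t.i) ↔ p = p0 := fun p => by
      rw [Fin.ext_iff]; show _ ↔ (p : ℕ) = t.i - 1; omega
    have e1 : ∀ p : Fin t.P, ((p : ℕ) + 1 = t.j) ↔ p = p1 := fun p => by
      rw [Fin.ext_iff]; show _ ↔ (p : ℕ) = t.j - 1; omega
    have h01 : p0 ≠ p1 := by rw [Ne, Fin.ext_iff]; show ¬ (t.i - 1 = t.j - 1); omega
    have k1 : nV t.P t.Q t.l' = mrg (nV t.P t.Q t.l) p0 p1 := by
      funext p q
      rw [hN]
      unfold LR.eN H138.mrg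
      rw [if_pos ty]
      cases p with
      | none =>
        rw [ix0, if_neg (by omega), if_neg (by omega), if_neg (by simp), if_neg (by simp)]
        rfl
      | some p =>
        rw [ix1]
        by_cases a1 : p = p1
        · rw [if_pos ((e1 p).2 a1), if_pos (by rw [a1])]
        · have s1 : ¬ ((some p : Option (Fin t.P)) = some p1) := by simpa using a1
          rw [if_neg (fun h => a1 ((e1 p).1 h)), if_neg s1]
          by_cases a0 : p = p0
          · have s0 : (some p : Option (Fin t.P)) = some p0 := by rw [a0]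
            rw [if_pos ((e0 p).2 a0), if_pos s0]
            have q0 : t.i = (p0 : ℕ) + 1 := ((e0 p0).2 rfl).symm
            have q1 : t.j = (p1 : ℕ) + 1 := ((e1 p1).2 rfl).symm
            rw [q0, q1]
            rfl
          · have s0 : ¬ ((some p : Option (Fin t.P)) = some p0) := by simpa using a0
            rw [if_neg (fun h => a0 ((e0 p).1 h)), if_neg s0]
            rfl
    have hR2 : ∀ p, ∑ q, nV t.P t.Q t.l (some p) (some q)
        = if p = p0 then 1 else if p = p1 then -1 else 0 := by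
      intro p
      rw [hR]; unfold LR.eR
      rw [if_pos ty]
      simp only [e0, e1]
    have hC2 : ∀ q, ∑ p, nV t.P t.Q t.l (some p) (some q) = 0 := by
      intro q
      rw [hC]; unfold LR.eC
      rw [if_pos ty]
    have main := fun b0 => h.rv_A hn1 hn2 p0 p1 h01 hR2 hC2 t.par b0
    have e3 : t.terms = [(6 * t.d, t.par, t.code), (-t.d, t.par, t.code')] := by
      unfold LR.terms; rw [if_pos (by omega)]
    rw [e3]
    simp only [H129.lval, List.map_cons, List.map_nil, List.sum_cons, List.sum_nil, add_zero, c1,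
      c2, k1]
    rw [Finset.sum_add_distrib, ← Finset.mul_sum, ← Finset.mul_sum, main 0]
    have m2 : ∑ b, H138.rv (y b) t.par (mrg (nV t.P t.Q t.l) p0 p1)
        = 6 * H138.rv (y 0) t.par (mrg (nV t.P t.Q t.l) p0 p1) := by
      have : ∀ b, H138.rv (y b) t.par (mrg (nV t.P t.Q t.l) p0 p1)
          = H138.rv (y 0) t.par (mrg (nV t.P t.Q t.l) p0 p1) := fun b => by
        rw [← main b, main 0]
      simp only [this, Finset.sum_const, Finset.card_univ, Fintype.card_fin, nsmul_eq_mul]
      norm_num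
    rw [m2]
    push_cast
    ring
  · rcases Nat.lt_or_ge t.ty 2 with h0' | h0'
    · -- two columns
      have ty : t.ty = 1 := by omega
      have ty0 : ¬ t.ty = 0 := by omega
      unfold LR.eI at hI
      rw [if_neg ty0, if_pos ty] at hI
      simp only [Bool.and_eq_true, decide_eq_true_eq, Bool.not_eq_true', beq_eq_false_iff_ne] at hI
      obtain ⟨⟨⟨⟨i1, i2⟩, j1⟩, j2⟩, ij⟩ := hI
      let p0 : Fin t.Q := ⟨t.i - 1, by omega⟩
      let p1 : Fin t.Q := ⟨t.j - 1, by omega⟩
      have e0 : ∀ p : Fin t.Q, ((p : ℕ) + 1 = t.i) ↔ p = p0 := fun p => by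
        rw [Fin.ext_iff]; show _ ↔ (p : ℕ) = t.i - 1; omega
      have e1 : ∀ p : Fin t.Q, ((p : ℕ) + 1 = t.j) ↔ p = p1 := fun p => by
        rw [Fin.ext_iff]; show _ ↔ (p : ℕ) = t.j - 1; omega
      have h01 : p0 ≠ p1 := by rw [Ne, Fin.ext_iff]; show ¬ (t.i - 1 = t.j - 1); omega
      have k1 : nV t.P t.Q t.l' = fun p q => mrg (fun q p => nV t.P t.Q t.l p q) p0 p1 q p := by
        funext p q
        rw [hN]
        unfold LR.eN H138.mrg
        rw [if_neg ty0, if_pos ty]
        cases q with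
        | none =>
          rw [ix0, if_neg (by omega), if_neg (by omega), if_neg (by simp), if_neg (by simp)]
          rfl
        | some q =>
          rw [ix1]
          by_cases a1 : q = p1
          · rw [if_pos ((e1 q).2 a1), if_pos (by rw [a1])]
          · have s1 : ¬ ((some q : Option (Fin t.Q)) = some p1) := by simpa using a1
            rw [if_neg (fun h => a1 ((e1 q).1 h)), if_neg s1]
            by_cases a0 : q = p0
            · have s0 : (some q : Option (Fin t.Q)) = some p0 := by rw [a0]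
              rw [if_pos ((e0 q).2 a0), if_pos s0]
              have q0 : t.i = (p0 : ℕ) + 1 := ((e0 p0).2 rfl).symm
              have q1 : t.j = (p1 : ℕ) + 1 := ((e1 p1).2 rfl).symm
              rw [q0, q1]
              rfl
            · have s0 : ¬ ((some q : Option (Fin t.Q)) = some p0) := by simpa using a0
              rw [if_neg (fun h => a0 ((e0 q).1 h)), if_neg s0]
              rfl
      have hR2 : ∀ p, ∑ q, nV t.P t.Q t.l (some p) (some q) = 0 := by
        intro p
        rw [hR]; unfold LR.eR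
        rw [if_neg ty0, if_pos ty]
      have hC2 : ∀ q, ∑ p, nV t.P t.Q t.l (some p) (some q)
          = if q = p0 then 1 else if q = p1 then -1 else 0 := by
        intro q
        rw [hC]; unfold LR.eC
        rw [if_neg ty0, if_pos ty]
        simp only [e0, e1]
      have main := fun b0 => h.rv_B hn1 hn2 p0 p1 h01 hC2 hR2 t.par b0
      have e3 : t.terms = [(6 * t.d, t.par, t.code), (-t.d, t.par, t.code')] := by
        unfold LR.terms; rw [if_pos (by omega)]
      rw [e3]
      simp only [H129.lval, List.map_cons, List.map_nil, List.sum_cons, List.sum_nil, add_zero, c1,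
        c2, k1]
      rw [Finset.sum_add_distrib, ← Finset.mul_sum, ← Finset.mul_sum, main 0]
      have m2 : ∑ b, H138.rv (y b) t.par
            (fun p q => mrg (fun q p => nV t.P t.Q t.l p q) p0 p1 q p)
          = 6 * H138.rv (y 0) t.par
            (fun p q => mrg (fun q p => nV t.P t.Q t.l p q) p0 p1 q p) := by
        have : ∀ b, H138.rv (y b) t.par
              (fun p q => mrg (fun q p => nV t.P t.Q t.l p q) p0 p1 q p)
            = H138.rv (y 0) t.par
              (fun p q => mrg (fun q p => nV t.P t.Q t.l p q) p0 p1 q p) := fun b => by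
          rw [← main b, main 0]
        simp only [this, Finset.sum_const, Finset.card_univ, Fintype.card_fin, nsmul_eq_mul]
        norm_num
      rw [m2]
      push_cast
      ring
    · -- row and column
      have ty0 : ¬ t.ty = 0 := by omega
      have ty1 : ¬ t.ty = 1 := by omega
      unfold LR.eI at hI
      rw [if_neg ty0, if_neg ty1] at hI
      simp only [Bool.and_eq_true, decide_eq_true_eq] at hI
      obtain ⟨⟨⟨i1, i2⟩, j1⟩, j2⟩ := hI
      let p0 : Fin t.P := ⟨t.i - 1, by omega⟩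
      let q0 : Fin t.Q := ⟨t.j - 1, by omega⟩
      have e0 : ∀ p : Fin t.P, ((p : ℕ) + 1 = t.i) ↔ p = p0 := fun p => by
        rw [Fin.ext_iff]; show _ ↔ (p : ℕ) = t.i - 1; omega
      have e1 : ∀ q : Fin t.Q, ((q : ℕ) + 1 = t.j) ↔ q = q0 := fun q => by
        rw [Fin.ext_iff]; show _ ↔ (q : ℕ) = t.j - 1; omega
      have gen : ∀ ε : ℤ, (ε = 1 ∨ ε = -1) →
          (∀ p, t.eR p = if p = t.i then ε else 0) → (∀ q, t.eC q = if q = t.j then ε else 0) →
          (∀ p q, t.eN p q = if p = t.i ∧ q = t.j then nn t.Q t.l p q - ε else nn t.Q t.l p q) →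
          ∑ b, H129.lval K (y b) t.terms = 0 := by
        intro ε hε hR1 hC1 hN1
        have k1 : nV t.P t.Q t.l' = sub1 (nV t.P t.Q t.l) p0 q0 ε := by
          funext p q
          rw [hN, hN1]
          unfold sub1
          cases p with
          | none =>
            rw [ix0, if_neg (by omega), if_neg (by simp)]
            rfl
          | some p =>
            cases q with
            | none =>
              rw [ix0, if_neg (by omega), if_neg (by simp)]
              rfl
            | some q =>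
              rw [ix1, ix1]
              by_cases a : p = p0 ∧ q = q0
              · rw [if_pos ⟨(e0 p).2 a.1, (e1 q).2 a.2⟩, if_pos ⟨by rw [a.1], by rw [a.2]⟩]
                rfl
              · rw [if_neg (fun h => a ⟨(e0 p).1 h.1, (e1 q).1 h.2⟩), if_neg (by simpa using a)]
                rfl
        have hR2 : ∀ p, ∑ q, nV t.P t.Q t.l (some p) (some q) = if p = p0 then ε else 0 := by
          intro p
          rw [hR, hR1]
          simp only [e0]
        have hC2 : ∀ q, ∑ p, nV t.P t.Q t.l (some p) (some q) = if q = q0 then ε else 0 := by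
          intro q
          rw [hC, hC1]
          simp only [e1]
        have main := fun b0 => h.rv_C hn1 hn2 p0 q0 hε hR2 hC2 t.par b0
        have m2 : ∀ (b : Fin 6), H138.rv (y b) (!t.par) (sub1 (nV t.P t.Q t.l) p0 q0 ε)
            = H138.rv (y 0) (!t.par) (sub1 (nV t.P t.Q t.l) p0 q0 ε) := fun b => by
          have h1 := (main b).symm.trans (main 0)
          cases hp : t.par with
          | true =>
            rw [hp] at h1
            simp only [if_true] at h1
            linarith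
          | false =>
            rw [hp] at h1
            simp only [Bool.false_eq_true, if_false] at h1
            linarith
        cases hp : t.par with
        | true =>
          have e3 : t.terms = [(t.d, true, t.code), (-t.d, false, t.code')] := by
            unfold LR.terms; rw [if_neg (by omega), if_pos hp]
          have m0 := main 0
          rw [hp] at c1 m0 m2
          simp only [if_true, Bool.not_true] at m0 m2
          rw [e3]
          simp only [H129.lval, List.map_cons, List.map_nil, List.sum_cons, List.sum_nil, add_zero,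
            c1, c2, k1]
          rw [Finset.sum_add_distrib, ← Finset.mul_sum, ← Finset.mul_sum, m0]
          simp only [m2, Finset.sum_const, Finset.card_univ, Fintype.card_fin, nsmul_eq_mul]
          push_cast
          ring
        | false =>
          have e3 : t.terms = [(6 * t.d, false, t.code), (-t.d, true, t.code')] := by
            unfold LR.terms
            rw [if_neg (by omega), if_neg (by rw [hp]; exact Bool.false_ne_true)]
          have m0 := main 0
          rw [hp] at c1 m0 m2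
          simp only [Bool.false_eq_true, if_false, Bool.not_false] at m0 m2
          rw [e3]
          simp only [H129.lval, List.map_cons, List.map_nil, List.sum_cons, List.sum_nil, add_zero,
            c1, c2, k1]
          rw [Finset.sum_add_distrib, ← Finset.mul_sum, ← Finset.mul_sum, m0]
          simp only [m2, Finset.sum_const, Finset.card_univ, Fintype.card_fin, nsmul_eq_mul]
          push_cast
          ring
      by_cases h2 : t.ty = 2
      · refine gen 1 (Or.inl rfl) (fun p => ?_) (fun q => ?_) (fun p q => ?_)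
        · unfold LR.eR; rw [if_neg ty0, if_neg ty1, if_pos h2]
        · unfold LR.eC; rw [if_neg ty0, if_neg ty1, if_pos h2]
        · unfold LR.eN; rw [if_neg ty0, if_neg ty1, if_pos h2]
      · refine gen (-1) (Or.inr rfl) (fun p => ?_) (fun q => ?_) (fun p q => ?_)
        · unfold LR.eR; rw [if_neg ty0, if_neg ty1, if_neg h2]
        · unfold LR.eC; rw [if_neg ty0, if_neg ty1, if_neg h2]
        · unfold LR.eN; rw [if_neg ty0, if_neg ty1, if_neg h2]

/-- lists of pairs. -/
theorem LR.spec_list (h : Fam y g r s) {K : ℕ} : ∀ {L : List LR}, (L.all fun t => t.ok K) = true →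
    ∑ b, H129.lval K (y b) (L.flatMap LR.terms) = 0
  | [], _ => by simp [H129.lval]
  | t :: L, hL => by
    rw [List.all_cons, Bool.and_eq_true] at hL
    have h1 := LR.spec h hL.1
    have h2 := LR.spec_list h hL.2
    have h3 : ∀ b, H129.lval K (y b) ((t :: L).flatMap LR.terms)
        = H129.lval K (y b) t.terms + H129.lval K (y b) (L.flatMap LR.terms) := fun b => by
      rw [List.flatMap_cons, H693.lval_append]
    simp only [h3]
    rw [Finset.sum_add_distrib, h1, h2, add_zero]

variable {m N c : ℕ}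

theorem xF_fam {B : Fin m → M6} (hB : IsMUBs B) (hc : 3 ≤ c) (w : ℕ) (e : Fin c ↪ Fin m)
    (b' : Fin 6) :
    Fam (fun b => xF B hc w e b b')
      (fun a d => H147.hh B (e ⟨0, by omega⟩, a) (e ⟨1, by omega⟩, d))
      (fun b a => H147.hh B (e ⟨2, by omega⟩, b) (e ⟨0, by omega⟩, a))
      (fun b d => H147.hh B (e ⟨1, by omega⟩, d) (e ⟨2, by omega⟩, b)) := by
  have U := H147.hh_unit hB
  have inv : ∀ u v, (H147.hh B u v)⁻¹ = H147.hh B v u := fun u v =>
    (eq_inv_of_mul_eq_one_right (U u v)).symm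
  have ne : ∀ u v, H147.hh B u v ≠ 0 := fun u v h0 => by
    have := U u v; rw [h0, zero_mul] at this; exact zero_ne_one this
  have h1 : e ⟨0, by omega⟩ ≠ e ⟨1, by omega⟩ := fun h => by simpa using e.injective h
  have h2 : e ⟨2, by omega⟩ ≠ e ⟨0, by omega⟩ := fun h => by simpa using e.injective h
  have h3 : e ⟨2, by omega⟩ ≠ e ⟨1, by omega⟩ := fun h => by simpa using e.injective h
  constructor
  · intro b a d
    obtain ⟨u', hu⟩ := H693.xF_eq hB hc w e b b'
    show xF B hc w e b b' _ _ = _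
    rw [hu, H693.xm_ac]
  · intro a d; exact ne _ _
  · intro b a; exact ne _ _
  · intro b a; exact ne _ _
  · intro a a'
    simp only [inv]
    have := H693.hsum2 hB (j := e ⟨0, by omega⟩) (i := e ⟨2, by omega⟩) a' a (Ne.symm h2)
    rw [show (if a = a' then (6 : ℂ) else 0) = if a' = a then 6 else 0 by
      by_cases h : a = a'
      · rw [if_pos h, if_pos h.symm]
      · rw [if_neg h, if_neg (Ne.symm h)], ← this]
    exact Finset.sum_congr rfl fun b _ => mul_comm _ _
  · intro d d'
    simp only [inv]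
    exact H693.hsum2 hB (j := e ⟨1, by omega⟩) (i := e ⟨2, by omega⟩) d d' (Ne.symm h3)
  · intro a d
    rw [inv]
    exact H693.hsum3 hB (v := (e ⟨1, by omega⟩, d)) (w := (e ⟨0, by omega⟩, a))
      (i := e ⟨2, by omega⟩) (Ne.symm h3) h2 (Ne.symm h1)
  · intro a d
    simp only [inv]
    rw [← H693.hsum3 hB (v := (e ⟨0, by omega⟩, a)) (w := (e ⟨1, by omega⟩, d))
      (i := e ⟨2, by omega⟩) (Ne.symm h2) h3 h1]
    exact Finset.sum_congr rfl fun b _ => mul_comm _ _

/-- **The pairs drop out in the average over the frames.** -/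
theorem avF_L1 {B : Fin m → M6} (hB : IsMUBs B) (hc : 3 ≤ c) {K : ℕ} {L : List LR}
    (hL : (L.all fun t => t.ok K) = true) :
    avF m c 6 0 (fun e b b' => H129.lval K (xF B hc 0 e b b') (L.flatMap LR.terms)) = 0 := by
  unfold avF
  have h1 : ∀ (e : Fin c ↪ Fin m), ∑ b : Fin 6, ∑ b' : Fin 6,
      (if okW2 c 6 0 b b' then H129.lval K (xF B hc 0 e b b') (L.flatMap LR.terms) else 0) = 0 := by
    intro e
    have h2 : ∀ b b', (if okW2 c 6 0 b b' then
        H129.lval K (xF B hc 0 e b b') (L.flatMap LR.terms) else 0)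
        = H129.lval K (xF B hc 0 e b b') (L.flatMap LR.terms) := fun b b' =>
      if_pos (fun h => absurd h.1 (by decide))
    simp only [h2]
    rw [Finset.sum_comm]
    exact Finset.sum_eq_zero fun b' _ => LR.spec_list (xF_fam hB hc 0 e b') hL
  simp only [h1, mul_zero, Finset.sum_const_zero]

/-- **Readings and pairs.** -/
theorem V_T_L1 {B : Fin m → M6} (hB : IsMUBs B) (hc : 3 ≤ c) {K : ℕ} {ct : H693.GT} {L : List VR}
    {LL : List LR} (hL : (L.all fun r => r.ok N c K (H693.tabG ct) 6 0) = true)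
    (hLL : (LL.all fun t => t.ok K) = true)
    (hQ : ∀ x, H138.Good false x → H182.N7x x →
      0 ≤ H129.lval K x (L.map VR.term ++ LL.flatMap LR.terms)) :
    0 ≤ H693.valT (H147.cv B N c) ct (L.map VR.ct) := by
  rw [H693.valT_VR]
  have h1 := H693.avF_nonneg (m := m) (c := c) 6 0 (F := fun e b b' =>
      H129.lval K (xF B hc 0 e b b') (L.map VR.term)
        + H129.lval K (xF B hc 0 e b b') (LL.flatMap LR.terms))
    (fun e b b' _ => by
      rw [← H693.lval_append]
      exact hQ _ (H693.xF_good hB hc 0 e b b') (H693.xF_n7 hB hc 0 e b b'))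
  rw [H693.avF_add, avF_L1 hB hc hLL, add_zero, H693.avF_list hB hc (by norm_num) (by norm_num)
    (fun h => absurd h (by norm_num)) hL] at h1
  exact h1

end Vale.Agent.P355.H129X

namespace Vale.Agent.P355.H693W

open Finset Matrix Vale.Agent.P355 Vale.Agent.P355.H129
open Vale.Agent.P355.H138 (Tr vl)
open Vale.Agent.P355.H387 (CT)
open Vale.Agent.P355.H693.Inj (riv)

set_option linter.unusedSectionVars false
set_option linter.unusedSimpArgs false

variable {W : ℕ}

/-- **Inequality of the coloured level**: readings and pairs of codes which drop out in the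
average over the gauge vector; wide identifiers in the rows. -/
theorem VIWL_packed {m N c K : ℕ} {B : Fin m → M6} (hB : IsMUBs B) (hc : 3 ≤ c) {ctG : H693.GT}
    {L : List H693.VR} (hL : (L.all fun r => r.ok N c K (H693.tabG ctG) 6 0) = true)
    {LL : List H129X.LR} (hLL : (LL.all fun t => t.ok K) = true)
    {l : List (ℤ × Bool × ℤ)} (hl : L.map H693.VR.term ++ LL.flatMap H129X.LR.terms = l)
    {tr : Tr} {ct : CT} {ids : List ℕ} {PT QT MT MT' M : ℕ}
    (hpk : pk W tr l ids = some ((PT, MT), (QT, MT')))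
    {lT lS lR : List (ℕ × ℕ)} {e E : ℕ}
    (hT : ∀ x, H138.Good false x → H182.N7x x → BrK K 46656 x W tr ct lT PT QT M)
    (hS : ∀ x, H138.Good false x → H182.N7x x → 0 ≤ H387.evL (riv x) ct lS)
    (hR : ∀ x, H138.Good false x → H182.N7x x → H998.Q.RwW x ct lR)
    (hM : MT < 2 ^ W) (hM' : MT' < 2 ^ W) (hM'' : M < 2 ^ W)
    (h1 : isOne ct e = true) (he : Nat.land e 1208925819614629174706175 = e)
    (hG : ∀ F : Bool → H693.Inj.Mt → ℝ, (∀ b M, |F b M| ≤ 5 / 2) →
      |H387.evL F ct lT - (H387.evL F ct lS + (H998.Q.evL F ct lR + H387.evL F ct (oneL e)))|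
        ≤ 5 / 2 * ((E : ℕ) : ℝ))
    (hμ : 5 * E < 2 * Nat.shiftRight e 19) :
    0 ≤ H693.valT (H147.cv B N c) ctG (L.map H693.VR.ct) := by
  refine H129X.V_T_L1 hB hc hL hLL fun x hx hN => ?_
  rw [hl]
  refine (lval_posS hpk (hT x hx hN) (hS x hx hN) hM hM' hM'' h1 he (E := E) ?_ hμ).le
  have h := hG (riv x) fun b M => H693.Inj.abs_riv_le hx.1 b M
  have hr := hR x hx hN
  unfold H998.Q.RwW at hr
  rw [hr, zero_add] at h
  exact h

end Vale.Agent.P355.H693W
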