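import Vale.Agent.P355.H693W.Fin7

/-! Several class tables: groups of rows and squares over tables which share all classes except
those of one subtree, linked by lists of shared classes. -/

namespace Vale.Agent.P355.H129X

open Finset Matrix Vale.Agent.P355 Vale.Agent.P355.H129
open Vale.Agent.P355.H138 (Tr RwP vl)
open Vale.Agent.P355.H387 (evL evN ev FV CT)
open Vale.Agent.P355.H693.Inj (riv Mt)
open Vale.Agent.P355.H998.R

set_option linter.unusedSectionVars false
set_option linter.unusedSimpArgs false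

/-! ### Tables which agree outside one subtree -/

/-- the tables agree at all classes whose identifier does not have `k` ones in the bits `6 ..`. -/
def AgK (k : ℕ) (ct ct' : CT) : Prop :=
  ∀ hi lo, (∃ i < k, hi.testBit i = false) → ct.get hi lo = ct'.get hi lo

theorem AgK.zero (ct ct' : CT) : AgK 0 ct ct' := fun _ _ ⟨_, h, _⟩ => absurd h (Nat.not_lt_zero _)

theorem AgK.refl (k : ℕ) (ct : CT) : AgK k ct ct := fun _ _ _ => rfl

theorem AgK.symm {k : ℕ} {ct ct' : CT} (h : AgK k ct ct') : AgK k ct' ct :=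
  fun hi lo hh => (h hi lo hh).symm

theorem get_nd (a b : CT) (hi lo : ℕ) : (CT.nd a b).get hi lo
    = if hi.testBit 0 then b.get (hi / 2) lo else a.get (hi / 2) lo := by
  have e1 : (CT.nd a b).get hi lo = Nat.rec (motive := fun _ => ℕ) (a.get (Nat.shiftRight hi 1) lo)
    (fun _ _ => b.get (Nat.shiftRight hi 1) lo) (Nat.land hi 1) := rfl
  have e2 : Nat.shiftRight hi 1 = hi / 2 := by
    have : hi >>> 1 = hi / 2 ^ 1 := Nat.shiftRight_eq_div_pow _ _
    rw [pow_one] at this
    exact this
  have e3 : Nat.land hi 1 = hi % 2 := Nat.and_one_is_mod hi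
  rw [e1, e2, e3, Nat.testBit_zero]
  rcases Nat.mod_two_eq_zero_or_one hi with h | h
  · rw [h]; rfl
  · rw [h]; rfl

theorem AgK.nd {k : ℕ} (a : CT) {b b' : CT} (h : AgK k b b') :
    AgK (k + 1) (CT.nd a b) (CT.nd a b') := by
  rintro hi lo ⟨i, hi1, hi2⟩
  rw [get_nd, get_nd]
  cases h0 : hi.testBit 0 with
  | false => rfl
  | true =>
    simp only [if_true]
    refine h _ _ ?_
    cases i with
    | zero => rw [h0] at hi2; exact absurd hi2 (by decide)
    | succ i =>
      refine ⟨i, by omega, ?_⟩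
      rw [Nat.testBit_succ] at hi2
      exact hi2

theorem AgK.one (a b b' : CT) : AgK 1 (CT.nd a b) (CT.nd a b') := (AgK.zero b b').nd a

theorem AgK.two (a a' b b' : CT) : AgK 2 (CT.nd a (CT.nd a' b)) (CT.nd a (CT.nd a' b')) :=
  ((AgK.zero b b').nd a').nd a

/-! ### Lists of shared classes -/

/-- ones in all the bits `6 .. 5 + k`. -/
def shN (k on C : ℕ) : ℕ := Nat.rec (motive := fun _ => ℕ) on
  (fun i ih => Nat.land ih (Nat.shiftRight C (Nat.add (nat_lit 6) i))) k

/-- **check**: all the classes of the list are shared. -/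
def shL (k : ℕ) (L : List (ℕ × ℕ)) : Bool :=
  List.rec (motive := fun _ => Bool) true
    (fun p _ ih => Bool.rec (motive := fun _ => Bool) false ih
      (Nat.beq (shN k (onX p.1) p.2) (nat_lit 0))) L

theorem shN_testBit (k on C t : ℕ) : (shN k on C).testBit t
    = (on.testBit t && decide (∀ i < k, C.testBit (6 + i + t) = true)) := by
  induction k with
  | zero => simp [shN]
  | succ k ih =>
    have e : shN (k + 1) on C = shN k on C &&& C >>> (6 + k) := rfl
    rw [e, Nat.testBit_and, ih, Nat.testBit_shiftRight]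
    by_cases h0 : on.testBit t = true
    · rw [h0, Bool.true_and, Bool.true_and]
      by_cases h1 : ∀ i < k, C.testBit (6 + i + t) = true
      · by_cases h2 : C.testBit (6 + k + t) = true
        · have h3 : ∀ i < k + 1, C.testBit (6 + i + t) = true := by
            intro i hi
            rcases Nat.lt_or_eq_of_le (Nat.le_of_lt_succ hi) with h | h
            · exact h1 i h
            · rw [h]; exact h2
          rw [decide_eq_true h1, decide_eq_true h3, h2, Bool.and_true]
        · have h3 : ¬ ∀ i < k + 1, C.testBit (6 + i + t) = true := fun h => h2 (h k (by omega))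
          have h2' : C.testBit (6 + k + t) = false := by simpa using h2
          rw [h2', Bool.and_false]
          symm
          exact decide_eq_false h3
      · have h3 : ¬ ∀ i < k + 1, C.testBit (6 + i + t) = true :=
          fun h => h1 fun i hi => h i (by omega)
        rw [decide_eq_false h1, decide_eq_false h3, Bool.false_and]
    · have h0' : on.testBit t = false := by simpa using h0
      rw [h0', Bool.false_and, Bool.false_and, Bool.false_and]

theorem onX_testBit (n j : ℕ) (hj : j < n) : (onX n).testBit (80 * j) = true := by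
  rw [onX_eq, ofB_testBit n _ fun i _ => by norm_num]
  have e1 : 80 * j / 80 = j := by omega
  have e2 : 80 * j % 80 = 0 := by omega
  rw [e1, e2]
  simp [hj]

theorem ev_ag {F : Bool → Mt → ℝ} {k : ℕ} (hk : k ≤ 12) {ct ct' : CT} (h : AgK k ct ct') {e : ℕ}
    (he : ∃ i < k, e.testBit (6 + i) = false) : ev F ct e = ev F ct' e := by
  unfold ev
  have e1 : ct.get (Nat.land (Nat.shiftRight e 6) 4095) (Nat.land e 63)
      = ct'.get (Nat.land (Nat.shiftRight e 6) 4095) (Nat.land e 63) := by
    refine h _ _ ?_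
    obtain ⟨i, hi, hi2⟩ := he
    refine ⟨i, hi, ?_⟩
    show ((e >>> 6) &&& 4095).testBit i = false
    rw [Nat.testBit_and, Nat.testBit_shiftRight, hi2, Bool.false_and]
  rw [e1]

/-- **A list of shared classes has one value.** -/
theorem evL_ag {F : Bool → Mt → ℝ} {k : ℕ} (hk : k ≤ 12) {ct ct' : CT} (h : AgK k ct ct')
    {L : List (ℕ × ℕ)} (hL : shL k L = true) : evL F ct L = evL F ct' L := by
  induction L with
  | nil => rfl
  | cons p L ih =>
    obtain ⟨h1, h2⟩ := bct (t := shL k L) (b := Nat.beq (shN k (onX p.1) p.2) 0) hL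
    have h1' := Nat.eq_of_beq_eq_true h1
    have e1 : ∀ c : CT, evL F c (p :: L) = evN F c p.1 p.2 + evL F c L := fun c => by
      unfold evL; rw [List.map_cons, List.sum_cons]
    rw [e1, e1, ih h2]
    congr 1
    rw [evN_sum, evN_sum]
    refine sum_congr rfl fun j hj => ?_
    refine ev_ag hk h ?_
    have h3 : (shN k (onX p.1) p.2).testBit (80 * j) = false := by rw [h1']; simp
    rw [shN_testBit, onX_testBit p.1 j (mem_range.1 hj), Bool.true_and] at h3
    have h4 : ¬ ∀ i < k, p.2.testBit (6 + i + 80 * j) = true := of_decide_eq_false h3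
    push_neg at h4
    obtain ⟨i, hi, hi2⟩ := h4
    refine ⟨i, hi, ?_⟩
    rw [Nat.testBit_mod_two_pow]
    have h5 : (p.2 >>> (80 * j)).testBit (6 + i) = p.2.testBit (6 + i + 80 * j) := by
      rw [Nat.testBit_shiftRight, Nat.add_comm]
    have h6 : p.2.testBit (6 + i + 80 * j) = false := by simpa using hi2
    rw [h5, h6, Bool.and_false]

theorem shL_append {k : ℕ} {L L' : List (ℕ × ℕ)} (h : shL k L = true) (h' : shL k L' = true) :
    shL k (L ++ L') = true := by
  induction L with
  | nil => exact h'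
  | cons p L ih =>
    obtain ⟨h1, h2⟩ := bct (t := shL k L) (b := Nat.beq (shN k (onX p.1) p.2) 0) h
    have e : shL k (p :: L ++ L') = Bool.rec (motive := fun _ => Bool) false (shL k (L ++ L'))
      (Nat.beq (shN k (onX p.1) p.2) 0) := rfl
    rw [e, h1]
    exact ih h2

theorem shL_cat {k : ℕ} {LL : List (List (ℕ × ℕ))} (h : ∀ L ∈ LL, shL k L = true) :
    shL k (cat LL) = true := by
  induction LL with
  | nil => rfl
  | cons L LL ih =>
    have e : cat (L :: LL) = L ++ cat LL := by simp [cat]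
    rw [e]
    exact shL_append (h L List.mem_cons_self) (ih fun m hm => h m (List.mem_cons_of_mem _ hm))

/-! ### Groups -/

/-- the value of the list is at least `- 5 / 2 E`. -/
def Low (x : Fin 7 → Fin 7 → ℂ) (ct : CT) (L : List (ℕ × ℕ)) (E : ℕ) : Prop :=
  -(5 / 2 * (E : ℝ)) ≤ evL (riv x) ct L

theorem low_nil (x : Fin 7 → Fin 7 → ℂ) (ct : CT) : Low x ct [] 0 := by
  unfold Low evL; simp

theorem low_of_nonneg {x : Fin 7 → Fin 7 → ℂ} {ct : CT} {L : List (ℕ × ℕ)}
    (h : 0 ≤ evL (riv x) ct L) : Low x ct L 0 := by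
  unfold Low; simpa using h

theorem low_of_rwP {x : Fin 7 → Fin 7 → ℂ} {ct : CT} {L : List (ℕ × ℕ)}
    (h : RwP x ct L) : Low x ct L 0 := by
  unfold RwP at h
  unfold Low; rw [h]; simp

theorem evL_append' (F : Bool → Mt → ℝ) (ct : CT) (L L' : List (ℕ × ℕ)) :
    evL F ct (L ++ L') = evL F ct L + evL F ct L' := by
  unfold evL; rw [List.map_append, List.sum_append]

theorem Low.append {x : Fin 7 → Fin 7 → ℂ} {ct : CT} {L L' : List (ℕ × ℕ)} {E E' : ℕ}
    (h : Low x ct L E) (h' : Low x ct L' E') : Low x ct (L ++ L') (E + E') := by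
  unfold Low at *
  rw [evL_append']
  push_cast
  linarith

theorem Low.mono {x : Fin 7 → Fin 7 → ℂ} {ct : CT} {L : List (ℕ × ℕ)} {E E' : ℕ}
    (h : Low x ct L E) (hE : E ≤ E') : Low x ct L E' := by
  unfold Low at *
  have : (E : ℝ) ≤ E' := by exact_mod_cast hE
  linarith

theorem Low.ag {x : Fin 7 → Fin 7 → ℂ} {k : ℕ} (hk : k ≤ 12) {ct ct' : CT} (hag : AgK k ct ct')
    {L : List (ℕ × ℕ)} (hL : shL k L = true) {E : ℕ} (h : Low x ct' L E) : Low x ct L E := by
  unfold Low at *
  rw [evL_ag hk hag hL]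
  exact h

/-- **A group of squares and rows over its own table**: the shared list `lM` is the sum of the
squares `lS` and the rows `lR` of the group, up to the residual `E`. -/
theorem low_group {x : Fin 7 → Fin 7 → ℂ} (hx : H138.Good false x) {k : ℕ} (hk : k ≤ 12)
    {ct ct' : CT} (hag : AgK k ct ct') {lM lS lR : List (ℕ × ℕ)} (hM : shL k lM = true)
    {E E' : ℕ} (hS : Low x ct' lS E') (hR : RwP x ct' lR)
    (hG : ∀ F : Bool → Mt → ℝ, (∀ b M, |F b M| ≤ 5 / 2) →
      |evL F ct' lM - (evL F ct' lS + evL F ct' lR)| ≤ 5 / 2 * ((E : ℕ) : ℝ)) :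
    Low x ct lM (E + E') := by
  refine Low.ag hk hag hM ?_
  have h := hG (riv x) fun b M => H693.Inj.abs_riv_le hx.1 b M
  unfold RwP at hR
  unfold Low at *
  rw [hR, add_zero] at h
  have h1 := (abs_le.1 h).1
  push_cast
  linarith

/-- a group of rows only. -/
theorem low_rows {x : Fin 7 → Fin 7 → ℂ} (hx : H138.Good false x) {k : ℕ} (hk : k ≤ 12)
    {ct ct' : CT} (hag : AgK k ct ct') {lM lR : List (ℕ × ℕ)} (hM : shL k lM = true)
    {E : ℕ} (hR : RwP x ct' lR)
    (hG : ∀ F : Bool → Mt → ℝ, (∀ b M, |F b M| ≤ 5 / 2) →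
      |evL F ct' lM - evL F ct' lR| ≤ 5 / 2 * ((E : ℕ) : ℝ)) :
    Low x ct lM E := by
  have := low_group (E := E) (E' := 0) (lS := []) hx hk hag hM (low_nil x ct') hR (fun F hF => by
    have := hG F hF
    have e : evL F ct' [] = 0 := by simp [evL]
    rw [e, zero_add]; exact this)
  simpa using this

end Vale.Agent.P355.H129X

namespace Vale.Agent.P355.H693W

open Finset Matrix Vale.Agent.P355 Vale.Agent.P355.H129
open Vale.Agent.P355.H138 (Tr RwP vl)
open Vale.Agent.P355.H387 (evL CT)
open Vale.Agent.P355.H693.Inj (riv Mt)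
open Vale.Agent.P355.H129X (Low)

variable {W : ℕ}

/-- **Inequality of the coloured level, several tables**: the squares (and the lists of the
groups) have a value `≥ - 5 / 2 E'`. -/
theorem VIG_low {m N c K : ℕ} {B : Fin m → M6} (hB : IsMUBs B) (hc : 3 ≤ c) {ctG : H693.GT}
    {L : List H693.VR} (hL : (L.all fun r => r.ok N c K (H693.tabG ctG) 6 0) = true)
    {l : List (ℤ × Bool × ℤ)} (hl : L.map H693.VR.term = l) {tr : Tr} {ct : CT}
    {ids : List ℕ} {PT QT MT MT' M : ℕ}
    (hpk : pk W tr l ids = some ((PT, MT), (QT, MT')))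
    {lT lS lR : List (ℕ × ℕ)} {e E E' : ℕ}
    (hT : ∀ x, H138.Good false x → H182.N7x x → BrK K 46656 x W tr ct lT PT QT M)
    (hS : ∀ x, H138.Good false x → H182.N7x x → Low x ct lS E')
    (hR : ∀ x, H138.Good false x → H182.N7x x → RwP x ct lR)
    (hM : MT < 2 ^ W) (hM' : MT' < 2 ^ W) (hM'' : M < 2 ^ W)
    (h1 : isOne ct e = true) (he : Nat.land e 1208925819614629174706175 = e)
    (hG : ∀ F : Bool → Mt → ℝ, (∀ b M, |F b M| ≤ 5 / 2) →
      |evL F ct lT - (evL F ct lS + (evL F ct lR + evL F ct (oneL e)))| ≤ 5 / 2 * ((E : ℕ) : ℝ))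
    (hμ : 5 * (E + E') < 2 * Nat.shiftRight e 19) :
    0 ≤ H693.valT (H147.cv B N c) ctG (L.map H693.VR.ct) := by
  refine VIS_packed hB hc hL hl hpk hT hM hM' hM'' h1 he (E := E + E') ?_ hμ
  intro x hx hN
  refine ⟨evL (riv x) ct lS + 5 / 2 * (E' : ℝ), ?_, ?_⟩
  · have := hS x hx hN
    unfold Low at this
    linarith
  · have h := hG (riv x) fun b M => H693.Inj.abs_riv_le hx.1 b M
    have hr := hR x hx hN
    unfold RwP at hr
    rw [hr, zero_add] at h
    have h0 : (0 : ℝ) ≤ 5 / 2 * (E' : ℝ) := by positivity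
    rw [abs_le] at h ⊢
    push_cast
    constructor
    · linarith [h.1]
    · linarith [h.2]

end Vale.Agent.P355.H693W
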