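import Vale.Agent.P355.H129X.Mt
import Vale.Agent.P355.H693.Fin0P

/-! End step with groups of sparse lists for frames with a mark: mark orthogonal to the gauge
vector (same basis) and mark in a fourth basis. -/

namespace Vale.Agent.P355.H693W

open Finset Matrix Vale.Agent.P355 Vale.Agent.P355.H129
open Vale.Agent.P355.H138 (Tr RwP vl)
open Vale.Agent.P355.H387 (evL CT)
open Vale.Agent.P355.H693.Inj (riv Mt)
open Vale.Agent.P355.H129X (Low)

set_option linter.unusedSectionVars false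
set_option linter.unusedSimpArgs false

variable {W : ℕ}

/-- positivity of a list of codes at one point, from the groups of sparse lists. -/
theorem lval_low {K : ℕ} {x : Fin 7 → Fin 7 → ℂ} (hx : H138.Base x)
    {l : List (ℤ × Bool × ℤ)} {tr : Tr} {ct : CT} {ids : List ℕ} {PT QT MT MT' M : ℕ}
    (hpk : pk W tr l ids = some ((PT, MT), (QT, MT')))
    {lT lS lR : List (ℕ × ℕ)} {e E E' : ℕ}
    (hT : BrK K 46656 x W tr ct lT PT QT M) (hS : Low x ct lS E') (hR : RwP x ct lR)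
    (hM : MT < 2 ^ W) (hM' : MT' < 2 ^ W) (hM'' : M < 2 ^ W)
    (h1 : isOne ct e = true) (he : Nat.land e 1208925819614629174706175 = e)
    (hG : ∀ F : Bool → Mt → ℝ, (∀ b M, |F b M| ≤ 5 / 2) →
      |evL F ct lT - (evL F ct lS + (evL F ct lR + evL F ct (oneL e)))| ≤ 5 / 2 * ((E : ℕ) : ℝ))
    (hμ : 5 * (E + E') < 2 * Nat.shiftRight e 19) : 0 < lval K x l := by
  have hs : 0 ≤ evL (riv x) ct lS + 5 / 2 * (E' : ℝ) := by
    unfold Low at hS
    linarith
  refine lval_posS hpk hT hs (E := E + E') hM hM' hM'' h1 he ?_ hμ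
  have h := hG (riv x) fun b M => H693.Inj.abs_riv_le hx b M
  have hr := hR
  unfold RwP at hr
  rw [hr, zero_add] at h
  have h0 : (0 : ℝ) ≤ 5 / 2 * (E' : ℝ) := by positivity
  rw [abs_le] at h ⊢
  push_cast
  constructor
  · linarith [h.1]
  · linarith [h.2]

/-- **Inequality of the coloured level, frames with a mark orthogonal to the gauge vector**:
marked records `L` (weight `6`), unmarked records `L0` (weight `5`). -/
theorem VIG0_low {m N c K : ℕ} {B : Fin m → M6} (hB : IsMUBs B) (hc : 3 ≤ c) {ctG : H693.GT}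
    {L L0 : List H693.VR} (hL : (L.all fun r => r.ok N c K (H693.tabG ctG) 7 7) = true)
    (hL0 : (L0.all fun r => r.ok N c K (H693.tabG ctG) 6 0) = true)
    {l : List (ℤ × Bool × ℤ)} (hl : L.map H693.VR.term ++ L0.map H693.VR.term = l)
    {tr : Tr} {ct : CT} {ids : List ℕ} {PT QT MT MT' M : ℕ}
    (hpk : pk W tr l ids = some ((PT, MT), (QT, MT')))
    {lT lS lR : List (ℕ × ℕ)} {e E E' : ℕ}
    (hT : ∀ x, H693.Ext0 x → H182.N7x x → BrK K 46656 x W tr ct lT PT QT M)
    (hS : ∀ x, H693.Ext0 x → H182.N7x x → Low x ct lS E')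
    (hR : ∀ x, H693.Ext0 x → H182.N7x x → RwP x ct lR)
    (hM : MT < 2 ^ W) (hM' : MT' < 2 ^ W) (hM'' : M < 2 ^ W)
    (h1 : isOne ct e = true) (he : Nat.land e 1208925819614629174706175 = e)
    (hG : ∀ F : Bool → Mt → ℝ, (∀ b M, |F b M| ≤ 5 / 2) →
      |evL F ct lT - (evL F ct lS + (evL F ct lR + evL F ct (oneL e)))| ≤ 5 / 2 * ((E : ℕ) : ℝ))
    (hμ : 5 * (E + E') < 2 * Nat.shiftRight e 19) :
    0 ≤ H693.valT (H147.cv B N c) ctG
      (H693.sclT 6 (L.map H693.VR.ct) ++ H693.sclT 5 (L0.map H693.VR.ct)) :=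
  H693.V0_T hB hc hL hL0 fun x hx hN => by
    rw [← H693.lval_append, hl]
    exact (lval_low hx.toBase hpk (hT x hx hN) (hS x hx hN) (hR x hx hN) hM hM' hM'' h1 he hG hμ).le

/-- **Inequality of the coloured level, frames with a mark in a fourth basis.** -/
theorem VIGm_low {m N c K : ℕ} {B : Fin m → M6} (hB : IsMUBs B) (hc : 4 ≤ c) {ctG : H693.GT}
    {L : List H693.VR} (hL : (L.all fun r => r.ok N c K (H693.tabG ctG) 6 8) = true)
    {l : List (ℤ × Bool × ℤ)} (hl : L.map H693.VR.term = l)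
    {tr : Tr} {ct : CT} {ids : List ℕ} {PT QT MT MT' M : ℕ}
    (hpk : pk W tr l ids = some ((PT, MT), (QT, MT')))
    {lT lS lR : List (ℕ × ℕ)} {e E E' : ℕ}
    (hT : ∀ x, H138.Good true x → H182.N7x x → BrK K 46656 x W tr ct lT PT QT M)
    (hS : ∀ x, H138.Good true x → H182.N7x x → Low x ct lS E')
    (hR : ∀ x, H138.Good true x → H182.N7x x → RwP x ct lR)
    (hM : MT < 2 ^ W) (hM' : MT' < 2 ^ W) (hM'' : M < 2 ^ W)
    (h1 : isOne ct e = true) (he : Nat.land e 1208925819614629174706175 = e)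
    (hG : ∀ F : Bool → Mt → ℝ, (∀ b M, |F b M| ≤ 5 / 2) →
      |evL F ct lT - (evL F ct lS + (evL F ct lR + evL F ct (oneL e)))| ≤ 5 / 2 * ((E : ℕ) : ℝ))
    (hμ : 5 * (E + E') < 2 * Nat.shiftRight e 19) :
    0 ≤ H693.valT (H147.cv B N c) ctG (L.map H693.VR.ct) :=
  H693.Vm_T hB hc hL fun x hx hN => by
    rw [hl]
    exact (lval_low hx.1 hpk (hT x hx hN) (hS x hx hN) (hR x hx hN) hM hM' hM'' h1 he hG hμ).le

end Vale.Agent.P355.H693W
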