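import Vale.Agent.P355.H693W.Fin9

/-! Marked frames: exchange of the gauge vector and the mark. An unmarked reading at the exchanged
frame is a reading (with marks) at the frame itself; the averages of both are equal. -/

namespace Vale.Agent.P355.H129X

open Finset Matrix Vale.Agent.P355 Vale.Agent.P355.H129
open Vale.Agent.P355.H138 (Tr RwP vl)
open Vale.Agent.P355.H387 (evL CT)
open Vale.Agent.P355.H693 (VR nn nV cdV smV okW2 avF w2c xF xe xm)

set_option linter.unusedSectionVars false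
set_option linter.unusedSimpArgs false

theorem prod_zpow_sum {ι : Type} (s : Finset ι) {u : ℂ} (hu : u ≠ 0) (f : ι → ℤ) :
    ∏ i ∈ s, u ^ f i = u ^ ∑ i ∈ s, f i := by
  classical
  induction s using Finset.induction_on with
  | empty => simp
  | insert a s ha ih => rw [Finset.prod_insert ha, Finset.sum_insert ha, ih, zpow_add₀ hu]

section swap
variable {P Q : Type} [Fintype P] [Fintype Q] [DecidableEq P] [DecidableEq Q]

/-- exponents of an unmarked monomial after the exchange of the gauge vector and the mark. -/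
def swN (n : Option P → Option Q → ℤ) : Option P → Option Q → ℤ
  | some p, some q => n (some p) (some q)
  | some p, none => - ∑ q : Option Q, n (some p) q
  | none, some q => - ∑ p : Option P, n p (some q)
  | none, none => 0

/-- the exchanged frame. -/
structure Swp (x y : Fin 7 → Fin 7 → ℂ) : Prop where
  h : ∀ a b : Fin 6, y a.castSucc b.castSucc
    = x a.castSucc b.castSucc * star (x 6 b.castSucc) * star (x a.castSucc 6)
  h1 : ∀ b : Fin 6, x 6 b.castSucc * star (x 6 b.castSucc) = 1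
  h2 : ∀ a : Fin 6, x a.castSucc 6 * star (x a.castSucc 6) = 1

theorem Swp.tr {x y : Fin 7 → Fin 7 → ℂ} (h : Swp x y) :
    Swp (fun r c => x c r) (fun r c => y c r) where
  h a b := by show y b.castSucc a.castSucc = _; rw [h.h]; ring
  h1 := h.h2
  h2 := h.h1

theorem gv_sw {x y : Fin 7 → Fin 7 → ℂ} (h : Swp x y)
    {n : Option P → Option Q → ℤ} (hn1 : ∀ q, n none q = 0) (hn2 : ∀ p, n p none = 0) :
    H138.gv y n = H138.gv x (swN n) := by
  unfold H138.gv
  congr 1
  refine Finset.sum_congr rfl fun φ _ => Finset.sum_congr rfl fun ψ _ => ?_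
  have s1 : ∀ q : Q, ∑ p : Option P, n p (some q) = ∑ p : P, n (some p) (some q) := fun q => by
    rw [Fintype.sum_option, hn1, zero_add]
  have s2 : ∀ p : P, ∑ q : Option Q, n (some p) q = ∑ q : Q, n (some p) (some q) := fun p => by
    rw [Fintype.sum_option, hn2, zero_add]
  have u1 : ∀ b : Fin 6, x 6 b.castSucc ≠ 0 := fun b hb => by
    have := h.h1 b; rw [hb, zero_mul] at this; exact zero_ne_one this
  have u2 : ∀ a : Fin 6, x a.castSucc 6 ≠ 0 := fun b hb => by
    have := h.h2 b; rw [hb, zero_mul] at this; exact zero_ne_one this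
  have i1 : ∀ b : Fin 6, star (x 6 b.castSucc) = (x 6 b.castSucc)⁻¹ := fun b =>
    eq_inv_of_mul_eq_one_right (h.h1 b)
  have i2 : ∀ a : Fin 6, star (x a.castSucc 6) = (x a.castSucc 6)⁻¹ := fun a =>
    eq_inv_of_mul_eq_one_right (h.h2 a)
  have key : ∀ (p : P) (q : Q), y (φ p).castSucc (ψ q).castSucc ^ n (some p) (some q)
      = x (φ p).castSucc (ψ q).castSucc ^ n (some p) (some q)
        * x 6 (ψ q).castSucc ^ (- n (some p) (some q))
        * x (φ p).castSucc 6 ^ (- n (some p) (some q)) := by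
    intro p q
    rw [h.h, i1, i2, mul_zpow, mul_zpow, _root_.inv_zpow', _root_.inv_zpow']
  have L : H138.mon y n φ ψ
      = ∏ p, ∏ q, y (φ p).castSucc (ψ q).castSucc ^ n (some p) (some q) := by
    unfold H138.mon
    rw [Fintype.prod_option]
    have e1 : ∏ q : Option Q, y (H138.ex φ none) (H138.ex ψ q) ^ n none q = 1 :=
      Finset.prod_eq_one fun q _ => by rw [hn1, zpow_zero]
    rw [e1, one_mul]
    refine Finset.prod_congr rfl fun p _ => ?_
    rw [Fintype.prod_option, hn2, zpow_zero, one_mul]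
    rfl
  have R : H138.mon x (swN n) φ ψ
      = (∏ q, x 6 (ψ q).castSucc ^ (∑ p, - n (some p) (some q)))
        * ∏ p, (x (φ p).castSucc 6 ^ (∑ q, - n (some p) (some q))
          * ∏ q, x (φ p).castSucc (ψ q).castSucc ^ n (some p) (some q)) := by
    unfold H138.mon
    rw [Fintype.prod_option]
    congr 1
    · rw [Fintype.prod_option]
      have e2 : swN n none none = 0 := rfl
      rw [e2, zpow_zero, one_mul]
      refine Finset.prod_congr rfl fun q _ => ?_
      have e3 : swN n none (some q) = - ∑ p : Option P, n p (some q) := rfl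
      rw [e3, s1, Finset.sum_neg_distrib]
      rfl
    · refine Finset.prod_congr rfl fun p _ => ?_
      rw [Fintype.prod_option]
      have e3 : swN n (some p) none = - ∑ q : Option Q, n (some p) q := rfl
      rw [e3, s2, Finset.sum_neg_distrib]
      rfl
  rw [L, R]
  simp only [key, Finset.prod_mul_distrib]
  have c1 : ∏ p, ∏ q, x 6 (ψ q).castSucc ^ (- n (some p) (some q))
      = ∏ q, x 6 (ψ q).castSucc ^ (∑ p, - n (some p) (some q)) := by
    rw [Finset.prod_comm]
    exact Finset.prod_congr rfl fun q _ => prod_zpow_sum _ (u1 _) _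
  have c2 : ∏ p, ∏ q, x (φ p).castSucc 6 ^ (- n (some p) (some q))
      = ∏ p, x (φ p).castSucc 6 ^ (∑ q, - n (some p) (some q)) :=
    Finset.prod_congr rfl fun p _ => prod_zpow_sum _ (u2 _) _
  rw [c1, c2]
  ring

theorem rv_sw {x y : Fin 7 → Fin 7 → ℂ} (h : Swp x y) (par : Bool)
    {n : Option P → Option Q → ℤ} (hn1 : ∀ q, n none q = 0) (hn2 : ∀ p, n p none = 0) :
    H138.rv y par n = H138.rv x par (swN n) := by
  unfold H138.rv
  rw [gv_sw h hn1 hn2, gv_sw h.tr hn1 hn2]

end swap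

/-! ### Records -/

/-- exponents after the exchange. -/
def swF (P Q : ℕ) (l : List ℤ) (i j : ℕ) : ℤ :=
  if i = 0 then (if j = 0 then 0 else - H138.sumR (P + 1) (fun k => nn Q l k j))
  else if j = 0 then - H138.sumR (Q + 1) (fun k => nn Q l i k) else nn Q l i j

/-- **check**: the second record is the first one after the exchange (the target is not read). -/
def swOK (K : ℕ) (p : VR × VR) : Bool :=
  (p.2.a == p.1.a) && (p.2.par == p.1.par) && (p.2.P == p.1.P) && (p.2.Q == p.1.Q) &&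
  smV p.1.P p.1.Q p.2.l && (cdV K p.1.P p.1.Q p.2.l == p.2.code) &&
  H138.allLe p.1.P fun i => H138.allLe p.1.Q fun j =>
    nn p.1.Q p.2.l i j == swF p.1.P p.1.Q p.1.l i j

theorem idx_none {K : ℕ} : H138.idx (none : Option (Fin K)) = 0 := rfl
theorem idx_some {K : ℕ} (i : Fin K) : H138.idx (some i) = (i : ℕ) + 1 := rfl

variable {m N c : ℕ}

/-- value of an exchanged record. -/
theorem swOK_spec {x y : Fin 7 → Fin 7 → ℂ} (h : Swp x y) {K : ℕ} {tab : ℕ → ℕ} {p : VR × VR}
    (hp : p.1.ok N c K tab 6 0 = true) (hs : swOK K p = true) :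
    (p.2.a : ℝ) * H138.cv K x p.2.par p.2.code = (p.1.a : ℝ) * H138.cv K y p.1.par p.1.code := by
  obtain ⟨r, r'⟩ := p
  unfold VR.ok at hp
  simp only [Bool.and_eq_true, decide_eq_true_eq, Bool.or_eq_true, beq_iff_eq] at hp
  obtain ⟨⟨⟨⟨⟨⟨⟨⟨hP, hQ⟩, hN⟩, hsm⟩, h00⟩, hmk⟩, hcd⟩, hbd⟩, ht⟩ := hp
  unfold swOK at hs
  simp only [Bool.and_eq_true, beq_iff_eq] at hs
  obtain ⟨⟨⟨⟨⟨⟨ha, hpar⟩, hP'⟩, hQ'⟩, hsm'⟩, hcd'⟩, hsw⟩ := hs
  have hn1 : ∀ q, nV r.P r.Q r.l none q = 0 := by
    rcases hmk with hmk | ⟨m1, m2⟩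
    · omega
    · intro q
      cases q with
      | none => exact h00
      | some j =>
        have := H138.allLe_spec' m2 ((j : ℕ) + 1) (by have := j.2; omega)
        have h3 : nn r.Q r.l 0 ((j : ℕ) + 1) = 0 := by simpa using this
        exact h3
  have hn2 : ∀ p, nV r.P r.Q r.l p none = 0 := by
    rcases hmk with hmk | ⟨m1, m2⟩
    · omega
    · intro p
      cases p with
      | none => exact h00
      | some i =>
        have := H138.allLe_spec' m1 ((i : ℕ) + 1) (by have := i.2; omega)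
        have h3 : nn r.Q r.l ((i : ℕ) + 1) 0 = 0 := by simpa using this
        exact h3
  have hcode : H138.rv y r.par (nV r.P r.Q r.l) = H138.cv K y r.par r.code :=
    H138.rv_eq_cv (Fin.castLE hP) (Fin.castLE hQ) (Fin.castLE_injective hP)
      (Fin.castLE_injective hQ) _ (H693.smV_spec hsm) _ _ (by rw [H693.codeE_V, hcd])
  have hcode' : H138.rv x r.par (nV r.P r.Q r'.l) = H138.cv K x r.par r'.code :=
    H138.rv_eq_cv (Fin.castLE hP) (Fin.castLE hQ) (Fin.castLE_injective hP)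
      (Fin.castLE_injective hQ) _ (H693.smV_spec hsm') _ _ (by rw [H693.codeE_V, hcd'])
  have hsN : nV r.P r.Q r'.l = swN (nV r.P r.Q r.l) := by
    funext p q
    have e0 : ∀ i j, i ≤ r.P → j ≤ r.Q → nn r.Q r'.l i j = swF r.P r.Q r.l i j := fun i j hi hj => by
      have := H138.allLe_spec' (H138.allLe_spec' hsw i hi) j hj
      simpa using this
    cases p with
    | none =>
      cases q with
      | none => exact e0 0 0 (Nat.zero_le _) (Nat.zero_le _)
      | some j =>
        have e1 := e0 0 ((j : ℕ) + 1) (Nat.zero_le _) j.2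
        have e2 : swF r.P r.Q r.l 0 ((j : ℕ) + 1)
            = - H138.sumR (r.P + 1) (fun k => nn r.Q r.l k ((j : ℕ) + 1)) := by
          unfold swF; rw [if_pos rfl, if_neg (Nat.succ_ne_zero _)]
        rw [e2, ← H693.sum_idxR (K := r.P) (fun k => nn r.Q r.l k ((j : ℕ) + 1))] at e1
        exact e1
    | some i =>
      cases q with
      | none =>
        have e1 := e0 ((i : ℕ) + 1) 0 i.2 (Nat.zero_le _)
        have e2 : swF r.P r.Q r.l ((i : ℕ) + 1) 0
            = - H138.sumR (r.Q + 1) (fun k => nn r.Q r.l ((i : ℕ) + 1) k) := by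
          unfold swF; rw [if_neg (Nat.succ_ne_zero _), if_pos rfl]
        rw [e2, ← H693.sum_idxR (K := r.Q) (fun k => nn r.Q r.l ((i : ℕ) + 1) k)] at e1
        exact e1
      | some j =>
        have e1 := e0 ((i : ℕ) + 1) ((j : ℕ) + 1) i.2 j.2
        have e2 : swF r.P r.Q r.l ((i : ℕ) + 1) ((j : ℕ) + 1) = nn r.Q r.l ((i : ℕ) + 1) ((j : ℕ) + 1) := by
          unfold swF; rw [if_neg (Nat.succ_ne_zero _), if_neg (Nat.succ_ne_zero _)]
        rw [e2] at e1
        exact e1
  show (r'.a : ℝ) * H138.cv K x r'.par r'.code = (r.a : ℝ) * H138.cv K y r.par r.code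
  rw [ha, hpar, ← hcode', ← hcode, hsN, rv_sw h r.par hn1 hn2]

/-- the frames of two vectors in both orders. -/
theorem xF_swp {B : Fin m → M6} (hB : IsMUBs B) (hc : 3 ≤ c) (e : Fin c ↪ Fin m) (b b' : Fin 6) :
    Swp (xF B hc 7 e b b') (xF B hc 7 e b' b) := by
  have U := H147.hh_unit hB
  have hw : w2c c 7 = some (⟨2, by omega⟩ : Fin c) :=
    H693.w2c_word hc 2 (by omega) 7 (by norm_num)
  have hu : ∀ b b', xF B hc 7 e b b' = xm B (e ⟨0, by omega⟩) (e ⟨1, by omega⟩)
      (e ⟨2, by omega⟩, b) (e ⟨2, by omega⟩, b') := by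
    intro b b'
    unfold xF xe
    rw [hw]
  rw [hu, hu]
  constructor
  · intro a d
    rw [H693.xm_ac, H693.xm_ac, H693.xm_c, H693.xm_a]
    simp only [star_mul', H147.star_hh]
    have U1 := U (e ⟨1, by omega⟩, d) (e ⟨2, by omega⟩, b)
    have U2 := U (e ⟨2, by omega⟩, b) (e ⟨0, by omega⟩, a)
    have U3 := U (e ⟨2, by omega⟩, b') (e ⟨2, by omega⟩, b)
    generalize H147.hh B (e ⟨1, by omega⟩, d) (e ⟨2, by omega⟩, b) = g1 at *
    generalize H147.hh B (e ⟨2, by omega⟩, b) (e ⟨1, by omega⟩, d) = g1' at *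
    generalize H147.hh B (e ⟨2, by omega⟩, b) (e ⟨0, by omega⟩, a) = g2 at *
    generalize H147.hh B (e ⟨0, by omega⟩, a) (e ⟨2, by omega⟩, b) = g2' at *
    generalize H147.hh B (e ⟨2, by omega⟩, b') (e ⟨2, by omega⟩, b) = g3 at *
    generalize H147.hh B (e ⟨2, by omega⟩, b) (e ⟨2, by omega⟩, b') = g3' at *
    generalize H147.hh B (e ⟨0, by omega⟩, a) (e ⟨1, by omega⟩, d) = z1
    generalize H147.hh B (e ⟨1, by omega⟩, d) (e ⟨2, by omega⟩, b') = z2
    generalize H147.hh B (e ⟨2, by omega⟩, b') (e ⟨0, by omega⟩, a) = z3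
    have : z1 * g1 * g2 * (z2 * g1' * g3) * (g2' * z3 * g3')
        = z1 * z2 * z3 * (g1 * g1') * (g2 * g2') * (g3 * g3') := by ring
    rw [this, U1, U2, U3]; ring
  · intro d
    rw [H693.xm_c]
    simp only [star_mul', H147.star_hh]
    have U1 := U (e ⟨2, by omega⟩, b') (e ⟨1, by omega⟩, d)
    have U2 := U (e ⟨1, by omega⟩, d) (e ⟨2, by omega⟩, b)
    have U3 := U (e ⟨2, by omega⟩, b) (e ⟨2, by omega⟩, b')
    generalize H147.hh B (e ⟨1, by omega⟩, d) (e ⟨2, by omega⟩, b) = g1 at *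
    generalize H147.hh B (e ⟨2, by omega⟩, b) (e ⟨1, by omega⟩, d) = g1' at *
    generalize H147.hh B (e ⟨2, by omega⟩, b') (e ⟨2, by omega⟩, b) = g3 at *
    generalize H147.hh B (e ⟨2, by omega⟩, b) (e ⟨2, by omega⟩, b') = g3' at *
    generalize H147.hh B (e ⟨2, by omega⟩, b') (e ⟨1, by omega⟩, d) = g2 at *
    generalize H147.hh B (e ⟨1, by omega⟩, d) (e ⟨2, by omega⟩, b') = g2' at *
    have : g2 * g1 * g3' * (g2' * g1' * g3) = (g2 * g2') * (g1 * g1') * (g3' * g3) := by ring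
    rw [this, U1, U2, U3]; ring
  · intro a
    rw [H693.xm_a]
    simp only [star_mul', H147.star_hh]
    have U1 := U (e ⟨2, by omega⟩, b) (e ⟨0, by omega⟩, a)
    have U2 := U (e ⟨0, by omega⟩, a) (e ⟨2, by omega⟩, b')
    have U3 := U (e ⟨2, by omega⟩, b') (e ⟨2, by omega⟩, b)
    generalize H147.hh B (e ⟨2, by omega⟩, b) (e ⟨0, by omega⟩, a) = g2 at *
    generalize H147.hh B (e ⟨0, by omega⟩, a) (e ⟨2, by omega⟩, b) = g2' at *
    generalize H147.hh B (e ⟨2, by omega⟩, b') (e ⟨2, by omega⟩, b) = g3 at *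
    generalize H147.hh B (e ⟨2, by omega⟩, b) (e ⟨2, by omega⟩, b') = g3' at *
    generalize H147.hh B (e ⟨0, by omega⟩, a) (e ⟨2, by omega⟩, b') = g1 at *
    generalize H147.hh B (e ⟨2, by omega⟩, b') (e ⟨0, by omega⟩, a) = g1' at *
    have : g2 * g1 * g3 * (g2' * g1' * g3') = (g2 * g2') * (g1 * g1') * (g3 * g3') := by ring
    rw [this, U1, U2, U3]; ring

/-- the average over ordered pairs of different vectors is symmetric. -/
theorem avF_sym (F : (Fin c ↪ Fin m) → Fin 6 → Fin 6 → ℝ) :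
    avF m c 7 7 (fun e b b' => F e b' b) = avF m c 7 7 F := by
  unfold avF
  congr 1
  refine Finset.sum_congr rfl fun e _ => ?_
  congr 1
  rw [Finset.sum_comm]
  refine Finset.sum_congr rfl fun b _ => Finset.sum_congr rfl fun b' _ => ?_
  have h : okW2 c 7 7 b' b ↔ okW2 c 7 7 b b' := by
    unfold okW2
    exact ⟨fun h h1 => (h h1).symm, fun h h1 => (h h1).symm⟩
  by_cases h1 : okW2 c 7 7 b b'
  · rw [if_pos h1, if_pos (h.2 h1)]
  · rw [if_neg h1, if_neg (fun h2 => h1 (h.1 h2))]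

/-- lists of exchanged records. -/
theorem lval_sw {x y : Fin 7 → Fin 7 → ℂ} (h : Swp x y) {K : ℕ} {tab : ℕ → ℕ} :
    ∀ {LP : List (VR × VR)}, (LP.all fun p => p.1.ok N c K tab 6 0 && swOK K p) = true →
    H129.lval K x (LP.map fun p => p.2.term) = H129.lval K y (LP.map fun p => p.1.term)
  | [], _ => rfl
  | p :: LP, hp => by
    rw [List.all_cons, Bool.and_eq_true, Bool.and_eq_true] at hp
    have ih := lval_sw h hp.2
    have h1 := swOK_spec h hp.1.1 hp.1.2
    simp only [H129.lval, List.map_cons, List.sum_cons, VR.term] at ih ⊢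
    rw [h1, ih]

/-- **Unmarked readings at the frame and at the exchanged frame.** -/
theorem ineq_sw {B : Fin m → M6} (hB : IsMUBs B) (hc : 3 ≤ c) {K : ℕ} {ct : H693.GT}
    {L0 : List VR} {LP : List (VR × VR)}
    (hL0 : (L0.all fun r => r.ok N c K (H693.tabG ct) 6 0) = true)
    (hLP : (LP.all fun p => p.1.ok N c K (H693.tabG ct) 6 0 && swOK K p) = true)
    (hQ : ∀ x, H693.Ext0 x → H182.N7x x →
      0 ≤ H129.lval K x (L0.map VR.term) + H129.lval K x (LP.map fun p => p.2.term)) :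
    0 ≤ H693.valT (H147.cv B N c) ct (L0.map VR.ct)
      + H693.valT (H147.cv B N c) ct ((LP.map Prod.fst).map VR.ct) := by
  have hL1 : ((LP.map Prod.fst).all fun r => r.ok N c K (H693.tabG ct) 6 0) = true := by
    rw [List.all_eq_true] at hLP ⊢
    intro r hr
    obtain ⟨p, hp, rfl⟩ := List.mem_map.1 hr
    have := hLP p hp
    rw [Bool.and_eq_true] at this
    exact this.1
  have h1 := H693.avF_nonneg (m := m) (c := c) 7 7 (F := fun e b b' =>
      H129.lval K (xF B hc 7 e b b') (L0.map VR.term)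
        + H129.lval K (xF B hc 7 e b b') (LP.map fun p => p.2.term))
    (fun e b b' hbb => hQ _ (H693.xF_ext0 hB hc rfl rfl e b b' hbb) (H693.xF_n7 hB hc 7 e b b'))
  have h2 : (fun (e : Fin c ↪ Fin m) b b' =>
        H129.lval K (xF B hc 7 e b b') (LP.map fun p => p.2.term))
      = fun e b b' => H129.lval K (xF B hc 7 e b' b) ((LP.map Prod.fst).map VR.term) := by
    funext e b b'
    rw [lval_sw (xF_swp hB hc e b b') hLP, List.map_map]
    rfl
  rw [H693.avF_add, H693.avF_list0 hB hc hL0, h2,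
    avF_sym (fun e b b' => H129.lval K (xF B hc 7 e b b') ((LP.map Prod.fst).map VR.term)),
    H693.avF_list0 hB hc hL1] at h1
  rw [H693.valT_VR, H693.valT_VR]
  linarith

end Vale.Agent.P355.H129X

namespace Vale.Agent.P355.H693W

open Finset Matrix Vale.Agent.P355 Vale.Agent.P355.H129
open Vale.Agent.P355.H138 (Tr RwP vl)
open Vale.Agent.P355.H387 (evL CT)
open Vale.Agent.P355.H693.Inj (riv Mt)

variable {W : ℕ}

/-- **Inequality of the coloured level, frames with a mark in the basis of the gauge vector**,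
readings without mark at the frame (`L0`) and at the exchanged frame (`LP`). -/
theorem VIMS_packed {m N c K : ℕ} {B : Fin m → M6} (hB : IsMUBs B) (hc : 3 ≤ c) {ctG : H693.GT}
    {L0 : List H693.VR} {LP : List (H693.VR × H693.VR)}
    (hL0 : (L0.all fun r => r.ok N c K (H693.tabG ctG) 6 0) = true)
    (hLP : (LP.all fun p => p.1.ok N c K (H693.tabG ctG) 6 0 && H129X.swOK K p) = true)
    {l : List (ℤ × Bool × ℤ)}
    (hl : L0.map H693.VR.term ++ LP.map (fun p => p.2.term) = l)
    {tr : Tr} {ct : CT} {ids : List ℕ} {PT QT MT MT' M : ℕ}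
    (hpk : pk W tr l ids = some ((PT, MT), (QT, MT')))
    {lT : List (ℕ × ℕ)} {e E : ℕ}
    (hT : ∀ x, H693.Ext0 x → H182.N7x x → BrK K 46656 x W tr ct lT PT QT M)
    (hM : MT < 2 ^ W) (hM' : MT' < 2 ^ W) (hM'' : M < 2 ^ W)
    (h1 : isOne ct e = true) (he : Nat.land e 1208925819614629174706175 = e)
    (hF : ∀ x, H693.Ext0 x → H182.N7x x → ∃ s : ℝ, 0 ≤ s ∧
      |evL (riv x) ct lT - (s + evL (riv x) ct (oneL e))| ≤ 5 / 2 * (E : ℝ))
    (hμ : 5 * E < 2 * Nat.shiftRight e 19) :
    0 ≤ H693.valT (H147.cv B N c) ctG (L0.map H693.VR.ct)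
      + H693.valT (H147.cv B N c) ctG ((LP.map Prod.fst).map H693.VR.ct) := by
  refine H129X.ineq_sw hB hc hL0 hLP fun x hx hN => ?_
  obtain ⟨s, hs, hF'⟩ := hF x hx hN
  have h0 := (lval_posS hpk (hT x hx hN) hs hM hM' hM'' h1 he hF' hμ).le
  rw [← H693.lval_append, hl]
  exact h0

/-- the same with one list, read at both frames. -/
theorem VIMS_one {m N c K : ℕ} {B : Fin m → M6} (hB : IsMUBs B) (hc : 3 ≤ c) {ctG : H693.GT}
    {LP : List (H693.VR × H693.VR)}
    (hLP : (LP.all fun p => p.1.ok N c K (H693.tabG ctG) 6 0 && H129X.swOK K p) = true)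
    {l : List (ℤ × Bool × ℤ)}
    (hl : (LP.map Prod.fst).map H693.VR.term ++ LP.map (fun p => p.2.term) = l)
    {tr : Tr} {ct : CT} {ids : List ℕ} {PT QT MT MT' M : ℕ}
    (hpk : pk W tr l ids = some ((PT, MT), (QT, MT')))
    {lT : List (ℕ × ℕ)} {e E : ℕ}
    (hT : ∀ x, H693.Ext0 x → H182.N7x x → BrK K 46656 x W tr ct lT PT QT M)
    (hM : MT < 2 ^ W) (hM' : MT' < 2 ^ W) (hM'' : M < 2 ^ W)
    (h1 : isOne ct e = true) (he : Nat.land e 1208925819614629174706175 = e)
    (hF : ∀ x, H693.Ext0 x → H182.N7x x → ∃ s : ℝ, 0 ≤ s ∧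
      |evL (riv x) ct lT - (s + evL (riv x) ct (oneL e))| ≤ 5 / 2 * (E : ℝ))
    (hμ : 5 * E < 2 * Nat.shiftRight e 19) :
    0 ≤ H693.valT (H147.cv B N c) ctG ((LP.map Prod.fst).map H693.VR.ct) := by
  have hL1 : ((LP.map Prod.fst).all fun r => r.ok N c K (H693.tabG ctG) 6 0) = true := by
    rw [List.all_eq_true] at hLP ⊢
    intro r hr
    obtain ⟨p, hp, rfl⟩ := List.mem_map.1 hr
    have := hLP p hp
    rw [Bool.and_eq_true] at this
    exact this.1
  have := VIMS_packed hB hc hL1 hLP hl hpk hT hM hM' hM'' h1 he hF hμ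
  linarith

end Vale.Agent.P355.H693W
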